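import Vale.Agent.P283R.Lz.Wc
import Vale.Agent.P283R.Ft.All2
import Vale.Agent.P283R.Sq.All3
import Vale.Agent.P283R.Sq.Onw32
import Vale.Agent.P283R.Sl.Sq5
import Vale.Agent.P283R.Lx.Lm3
import Vale.Agent.P283R.Ko.Tf
import Vale.Agent.P283R.Cq.All
import Vale.Agent.P283R.Tq.Cmp48

/-!
# P283R: the theorems in the words of `Lz/W`
-/

open CategoryTheory AlgebraicGeometry

namespace Vale.Agent.P283R.Lz

open Sl Sl.Var

theorem Quo.old {p : Prop} {Z : Var} {z : Pt Z.X} {U : Z.X.Opens} {S : Type} [CommRing S]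
    [Algebra ℂ S] (hz : z.Closed) (a2 : IsAffineOpen U) (a3 : z.In U) (h : Quo p (regOn U) S) :
    LciqOr p Z z := by
  obtain ⟨c, I, G, i, b1, b2, b3, b4, b5, b6, b7, b8, b9, q⟩ := h
  exact ⟨c, Z, 𝟙 _, z, U, S, _, _, ⟨inferInstance, Category.id_comp _, rfl, hz⟩, a2, a3, I, G, i,
    ⟨b1, b2, b3, b4, b5, b6, b7, b8, b9⟩, q⟩

theorem Sph.old {X : Var} {U : X.X.Opens} {S : Set (Pt X.X)} (h : Sph U S) :
    ∃ N, SphericalFix N U S := by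
  obtain ⟨N, L, _, _, x, G, H, l, r, i, h⟩ := h
  exact ⟨N, L, _, _, x, G, H, l, r, i, ⟨h.1, h.2, h.3, h.4, h.5, h.6, h.7, h.8, h.9⟩, h.10, h.11,
    h.12, fun g a => (h.13 g a).1, fun g a => (h.13 g a).2⟩

theorem Sph.new {X : Var} {U : X.X.Opens} {S : Set (Pt X.X)} {N : ℕ} (h : SphericalFix N U S) :
    Sph U S := by
  obtain ⟨L, _, _, x, G, H, l, r, i, h, a, b, c, e, k⟩ := h
  exact ⟨N, L, _, _, x, G, H, l, r, i, h.1, h.2, h.3, h.4, h.5, h.6, h.7, h.8, h.9, a, b, c,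
    fun g u => ⟨e g u, k g u⟩⟩

variable {C C' : ∀ (d : ℕ) (X Z : Var), (X.X ⟶ Z.X) → X.Form d → X.QDiv → Pt Z.X → Prop}

theorem mono_cl (h : OnN C)
    (i : ∀ d X Z f ω B z, z.Closed → Contraction f → C' d X Z f ω B z → C d X Z f ω B z) :
    OnN C' :=
  fun d hd ε hε R hR => (h d hd ε hε R hR).imp fun _ H => ⟨H.1, fun X Z f ω B z a b c e s t u =>
    H.2 X Z f ω B z a b c e s t ⟨u.1, u.2.1, i _ _ _ _ _ _ _ t s u.2.2⟩⟩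

theorem on_nt : OnN fun _ _ _ f _ _ z => NoTors f z := onN_tf

theorem on_cx : OnN fun _ _ _ f ω _ z => Cplx f ω z := onN_lm

theorem on_sp : OnN fun _ _ _ f _ _ z => ∃ V, z.In V ∧ Sph (pre f V) ∅ :=
  On.mono on_sqf fun _ _ _ _ _ _ _ ⟨u, v, V, i, k⟩ => let ⟨N, k⟩ := k.old; ⟨u, v, V, N, i, k⟩

theorem on_sf : OnN fun _ X _ f _ _ z => ∃ V, z.In V ∧ IsAffineOpen V ∧ ∃ (S : Var)
    (π : S.X ⟶ X.X), FinQuot π ∧ Sph (pre (π ≫ f) V) {x | x.map (π ≫ f) = z} :=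
  On.mono on_sphq fun _ _ _ _ _ _ _ ⟨u, v, V, i, a, S, π, q, k⟩ =>
    let ⟨N, k⟩ := k.old; ⟨u, v, S, π, V, N, FreeQuotient.fin q, a, i, k⟩

theorem on_tc (M : ℕ → ℕ) :
    OnN fun d _ _ f _ _ z => ∃ V, z.In V ∧ TorusCox (M d) (pre f V) :=
  mono_cl (C := fun d _ _ f _ _ z => ∃ V, z.In V ∧ CoxQuotient (M d) (pre f V)) (on_cxq M)
    fun _ _ _ _ _ _ z _ c ⟨V, i, k⟩ =>
      let ⟨x, e⟩ := c.2.2.1.surj z
      ⟨V, i, CoxBase.old k x (show _ ∈ V from e ▸ i)⟩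

/-- two classes over an open neighbourhood -/
theorem or_open {P Q : ∀ (_ : ℕ) (X Z : Var), (X.X ⟶ Z.X) → Pt Z.X → Z.X.Opens → Prop}
    (h : OnN fun d X Z f _ _ z => ∃ V, z.In V ∧ P d X Z f z V)
    (h' : OnN fun d X Z f _ _ z => ∃ V, z.In V ∧ Q d X Z f z V) :
    OnN fun d X Z f _ _ z => ∃ V, z.In V ∧ (P d X Z f z V ∨ Q d X Z f z V) :=
  (h.or h').mono fun _ _ _ _ _ _ _ ⟨V, i, j⟩ => j.imp (fun k => ⟨V, i, k⟩) fun k => ⟨V, i, k⟩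

/-- towers over a germ -/
theorem on_germ : OnN fun d _ W g η D w =>
    ∃ e : ℕ, dimension W.str = e ∧ 1 ≤ e ∧ Tower g ∧ Triv g η D ∧
      ((∃ (U : _) (S : Type) (_ : CommRing S) (_ : Algebra ℂ S), IsAffineOpen U ∧ w.In U ∧
        Quo (e = d ∧ Same g D.coeff 0) (regOn U) S) ∨ 3 ≤ e ∧ Mild e (e - 3) W w) :=
  mono_cl (onN_germT Ft.fta) fun _ _ _ _ _ _ _ k _ ⟨e, a, b, c, t, u⟩ =>
    ⟨e, a, b, c, t, u.imp (fun ⟨_, _, _, _, i, j, v⟩ => v.old k i j) id⟩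

/-- towers over a class -/
theorem steps {C : ∀ (d : ℕ) (X Z : Var), (X.X ⟶ Z.X) → X.Form d → Pt Z.X → Prop}
    (h : OnN fun d X Z f ω _ z => C d X Z f ω z) : OnN fun _ Y W g η D w =>
      ∃ (e : ℕ) (T : Var) (a : Y.X ⟶ T.X) (h : T.X ⟶ W.X) (θ : T.Form e),
        dimension T.str = e ∧ 1 ≤ e ∧ θ.Nonzero ∧ a ≫ h = g ∧ Tower a ∧ Triv a η D ∧
        C e T W h θ w := h.tower Ft.fta

/-- after an étale base change -/
theorem lit (h : OnN C) :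
    ∀ d : ℕ, 1 ≤ d → ∀ ε : ℝ, 0 < ε → ∀ R : Finset ℚ, (∀ r ∈ R, 0 ≤ r ∧ r ≤ 1) →
    ∃ n : ℕ, 1 ≤ n ∧ ∀ (X Z : Var) (f : X.X ⟶ Z.X) (ω : X.Form d) (B : X.QDiv)
      (z : Pt Z.X), dimension X.str = d → ω.Nonzero → Pair (ε ≤ ·) (all X.X) ω B →
      (∀ y, B.coeff y ≠ 0 → B.coeff y ∈ R) → Contraction f → FanoType f ω →
      NefOver f (-logCan ω B) → z.Closed → EtLoc (C d) f B z → HasKltComplement f ω B n z :=
  fun d hd ε hε R hR => (h.et d hd ε hε R hR).imp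
    fun _ H => ⟨H.1, fun X Z f ω B z a b c e s u v t w => H.2 X Z f ω B z a b c e s t ⟨u, v, w⟩⟩

/-- the shape of `literalT` -/
theorem literal {C : ∀ (d : ℕ) (X Z : Var), (X.X ⟶ Z.X) → X.Form d → Pt Z.X → Prop}
    (h : OnN fun d X Z f ω _ z => C d X Z f ω z) :
    ∀ d : ℕ, 1 ≤ d → ∀ ε : ℝ, 0 < ε → ∀ R : Finset ℚ, (∀ r ∈ R, 0 ≤ r ∧ r ≤ 1) →
    ∃ n : ℕ, 1 ≤ n ∧ ∀ (X Z : Var) (f : X.X ⟶ Z.X) (ω : X.Form d) (B : X.QDiv)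
      (z : Pt Z.X), dimension X.str = d → ω.Nonzero → Pair (ε ≤ ·) (all X.X) ω B →
      (∀ y, B.coeff y ≠ 0 → B.coeff y ∈ R) → Contraction f → FanoType f ω →
      NefOver f (-logCan ω B) → z.Closed →
      EtLoc (fun Y W g (η : Y.Form d) D w =>
        (∃ (e : ℕ) (T : Var) (a : Y.X ⟶ T.X) (h : T.X ⟶ W.X) (θ : T.Form e),
          dimension T.str = e ∧ 1 ≤ e ∧ θ.Nonzero ∧ a ≫ h = g ∧ Tower a ∧ Triv a η D ∧
          C e T W h θ w) ∨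
        ∃ e : ℕ, dimension W.str = e ∧ 1 ≤ e ∧ Tower g ∧ Triv g η D ∧
          ((∃ (U : _) (S : Type) (_ : CommRing S) (_ : Algebra ℂ S), IsAffineOpen U ∧ w.In U ∧
            Quo (e = d ∧ Same g D.coeff 0) (regOn U) S) ∨ 3 ≤ e ∧ Mild e (e - 3) W w)) f B z →
      HasKltComplement f ω B n z := lit ((steps h).or on_germ)

/-- the classes over an open neighbourhood -/
theorem on_open (M : ℕ → ℕ) : OnN fun d X _ f _ _ z => ∃ V, z.In V ∧ (Sph (pre f V) ∅ ∨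
    TorusCox (M d) (pre f V) ∨ IsAffineOpen V ∧ ∃ (S : Var) (π : S.X ⟶ X.X), FinQuot π ∧
      Sph (pre (π ≫ f) V) {x | x.map (π ≫ f) = z}) :=
  (on_sp.or ((on_tc M).or on_sf)).mono fun _ _ _ _ _ _ _ ⟨V, i, j⟩ =>
    j.imp (fun k => ⟨V, i, k⟩) fun k => k.imp (fun l => ⟨V, i, l⟩) fun l => ⟨V, i, l⟩

end Vale.Agent.P283R.Lz
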