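import Vale.Agent.P283R.Lz.On3
import Vale.Agent.P283R.Mq.Gl

/-!
# P283R: the germ clause over any word for towers, with quotients of mild points
-/

open CategoryTheory AlgebraicGeometry

namespace Vale.Agent.P283R.Lz

open Sl Sl.Var

/-- `T` carries the results on crepant models of germs up to the towers -/
def Lifts (T : ℕ → ∀ X Y : Var, (X.X ⟶ Y.X) → Prop) : Prop :=
  ∀ S : ℕ → ∀ Z : Var, Pt Z.X → Prop, (On fun d _ Z f ω B z => Crepant f ω B z ∧ S d Z z) →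
    OnN fun d X Z f ω B z =>
      ∃ e : ℕ, dimension Z.str = e ∧ 1 ≤ e ∧ T d X Z f ∧ Triv f ω B ∧ S e Z z

theorem lifts_geo (J : ℕ → ℕ) : Lifts fun d _ _ g => Geo (J d) g := fun _ h => geo_germ J h

/-- quotients of complete intersections, and any other class of germs -/
theorem Lifts.germ {T : ℕ → ∀ X Y : Var, (X.X ⟶ Y.X) → Prop} (H : Lifts T)
    {S : ℕ → ∀ Z : Var, Pt Z.X → Prop} (h : On fun d _ Z f ω B z => Crepant f ω B z ∧ S d Z z) :
    OnN fun d Y W g η D w => ∃ e : ℕ, dimension W.str = e ∧ 1 ≤ e ∧ T d Y W g ∧ Triv g η D ∧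
      ((∃ (U : _) (S : Type) (_ : CommRing S) (_ : Algebra ℂ S), IsAffineOpen U ∧ w.In U ∧
        Quo (e = d ∧ Same g D.coeff 0) (regOn U) S) ∨ S e W w) :=
  mono_cl ((H (fun e W w => LciqReg W w ∨ S e W w)
    ((Pu.on.or h).mono fun _ _ _ _ _ _ _ u =>
      u.2.imp (fun v => ⟨u.1, v⟩) fun v => ⟨u.1, v⟩)).or onN_lci0)
    fun _ _ _ _ _ _ _ k _ ⟨e, a, b, c, t, u⟩ => by
      rcases u with ⟨_, _, _, _, i, j, u⟩ | u
      · rcases (u.old k i j).elim with v | ⟨⟨rfl, v⟩, w⟩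
        · exact .inl ⟨e, a, b, c, t, .inl v⟩
        · exact .inr ⟨a, t, v, w⟩
      · exact .inl ⟨e, a, b, c, t, .inr u⟩

/-- points with a mild index one cover -/
theorem cr_mild : On fun d _ Z f ω B z => Crepant f ω B z ∧ 3 ≤ d ∧ Mild d (d - 3) Z z :=
  on_cdv.mono fun _ _ _ _ _ _ _ u => ⟨u.2.1, u.1, u.2.2⟩

/-- quotients of mild points -/
theorem cr_mq : On fun d _ Z f ω B z => Crepant f ω B z ∧ 3 ≤ d ∧ ∃ (S : Var) (π : S.X ⟶ Z.X)
    (y : Pt S.X), FinQuot π ∧ (∀ x : Pt S.X, x.map π = z ↔ x = y) ∧ Sl.Mild d 1 (d - 3) S y :=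
  on_mq.mono fun _ _ _ _ _ _ _ ⟨a, b, S, π, y, q, u⟩ => ⟨b, a, S, π, y, FreeQuotient.fin q, u⟩

end Vale.Agent.P283R.Lz
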