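import Vale.Agent.P283R.Lz.On3
import Vale.Agent.P283R.Mq.Gl2

/-!
# P283R: quotients of mild points in the words of `Lz/W`
-/

open CategoryTheory AlgebraicGeometry

namespace Vale.Agent.P283R.Lz

open Sl Sl.Var

/-- quotients of mild points -/
theorem on_mquot : On fun e _ W f ω B w => Crepant f ω B w ∧ 3 ≤ e ∧ ∃ (S : Var) (π : S.X ⟶ W.X)
    (y : Pt S.X), FinQuot π ∧ (∀ x : Pt S.X, x.map π = w ↔ x = y) ∧ Mild e (e - 3) S y :=
  on_mq'.mono fun _ _ _ _ _ _ _ ⟨a, b, S, π, y, q, u, m⟩ =>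
    ⟨b, a, S, π, y, FreeQuotient.fin q, u, m⟩

/-- the identity is a finite quotient -/
theorem FinQuot.id (W : Var) : FinQuot (𝟙 W.X) := by
  have e : ∀ (y : Pt W.X) (a : St W.X (y.map (𝟙 W.X))), toRat (comap (𝟙 W.X) y a) = toRat a :=
    fun y a => (Br.pb_id (X := W.o) y a).symm
  refine ⟨inferInstance, inferInstance, Category.id_comp _, ⟨⊥, inferInstance, ?_⟩,
    fun E => ⟨E, rfl, fun a => congrArg (ord · E) (e _ a)⟩⟩
  rw [IntermediateField.fixedField_bot]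
  refine Set.eq_univ_of_forall fun g => ?_
  obtain ⟨a, rfl⟩ : RegAt g (genericPoint W.X) := P270L.S.mem_loc_gen g
  exact ⟨genericPoint W.X, a, (e _ a).symm⟩

/-- the old clause implies the new one -/
theorem Mild.quot {e b : ℕ} {W : Var} {w : Pt W.X} (h : Mild e b W w) : ∃ (S : Var)
    (π : S.X ⟶ W.X) (y : Pt S.X), FinQuot π ∧ (∀ x : Pt S.X, x.map π = w ↔ x = y) ∧ Mild e b S y :=
  ⟨W, 𝟙 _, w, .id W, fun _ => Iff.rfl, h⟩

/-- geometric towers over a germ -/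
theorem on_germM (J : ℕ → ℕ) : OnN fun d _ W g η D w =>
    ∃ e : ℕ, dimension W.str = e ∧ 1 ≤ e ∧ Geo (J d) g ∧ Triv g η D ∧
      ((∃ (U : _) (S : Type) (_ : CommRing S) (_ : Algebra ℂ S), IsAffineOpen U ∧ w.In U ∧
        Quo (e = d ∧ Same g D.coeff 0) (regOn U) S) ∨ 3 ≤ e ∧ ∃ (S : Var) (π : S.X ⟶ W.X)
        (y : Pt S.X), FinQuot π ∧ (∀ x : Pt S.X, x.map π = w ↔ x = y) ∧ Mild e (e - 3) S y) :=
  ((on_germG J).or (geo_germ J on_mquot)).mono fun _ _ _ _ _ _ _ ⟨e, a, b, c, t, u⟩ =>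
    u.imp (fun v => ⟨e, a, b, c, t, .inl v⟩) fun v => ⟨e, a, b, c, t, v⟩

/-- the shape of `literalG` with quotients of mild points -/
theorem literalQM (J : ℕ → ℕ) {C : ∀ (d : ℕ) (X Z : Var), (X.X ⟶ Z.X) → X.Form d → Pt Z.X → Prop}
    (h : OnN fun d X Z f ω _ z => C d X Z f ω z) :
    ∀ d : ℕ, 1 ≤ d → ∀ ε : ℝ, 0 < ε → ∀ R : Finset ℚ, (∀ r ∈ R, 0 ≤ r ∧ r ≤ 1) →
    ∃ n : ℕ, 1 ≤ n ∧ ∀ (X Z : Var) (f : X.X ⟶ Z.X) (ω : X.Form d) (B : X.QDiv)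
      (z : Pt Z.X), dimension X.str = d → ω.Nonzero → Pair (ε ≤ ·) (all X.X) ω B →
      (∀ y, B.coeff y ≠ 0 → B.coeff y ∈ R) → Contr f → Fano f ω →
      Nef f (-logCan ω B) → z.Closed →
      EtLoc (fun Y W g (η : Y.Form d) D w =>
        (∃ (e : ℕ) (T : Var) (a : Y.X ⟶ T.X) (h : T.X ⟶ W.X) (θ : T.Form e),
          dimension T.str = e ∧ 1 ≤ e ∧ θ.Nonzero ∧ a ≫ h = g ∧ Geo (J d) a ∧ Triv a η D ∧
          C e T W h θ w) ∨
        ∃ e : ℕ, dimension W.str = e ∧ 1 ≤ e ∧ Geo (J d) g ∧ Triv g η D ∧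
          ((∃ (U : _) (S : Type) (_ : CommRing S) (_ : Algebra ℂ S), IsAffineOpen U ∧ w.In U ∧
            Quo (e = d ∧ Same g D.coeff 0) (regOn U) S) ∨ 3 ≤ e ∧ ∃ (S : Var) (π : S.X ⟶ W.X)
            (y : Pt S.X), FinQuot π ∧ (∀ x : Pt S.X, x.map π = w ↔ x = y) ∧
              Mild e (e - 3) S y)) f B z →
      Compl f ω B n z := litB ((geo J h).or (on_germM J))

end Vale.Agent.P283R.Lz
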