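import Vale.Agent.P283R.Lz.Cv
import Vale.Agent.P283R.Lz.On
import Vale.Agent.P283R.Sl.Lv83

/-!
# P283R: descent along finite covers, in the words of `Lz`
-/

open CategoryTheory AlgebraicGeometry

namespace Vale.Agent.P283R.Lz

open Sl Sl.Var

theorem Cover.old {X Z : Var} {d J : ℕ}
    {C : ∀ Y W : Var, (Y.X ⟶ W.X) → Y.Form d → Y.QDiv → Pt W.X → Prop}
    {f : X.X ⟶ Z.X} {B : X.QDiv} {z : Pt Z.X} (h : Cover J C f B z) :
    Covered J (fun Y W g ω B' w => FanoType g ω ∧ NefOver g (-logCan ω B') ∧ C Y W g ω B' w)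
      f B z := by
  obtain ⟨Y, W, g, π, e, ω, B', b, h1, h2, h3, h4, h5, h6, h7, h8, h9, u, v, k⟩ := h
  obtain ⟨ι, pe⟩ := Tq.exists_pe' (Z := X.o) (W := Y.o) π h2
  refine ⟨Y, W, g, π, e, ω, B', ⟨h1, h2, h3, ι, pe, ⟨b, fun t => ?_⟩, fun E => ?_⟩, h6, h7, h8, h9,
    fun w x => ⟨u, v, k w x⟩⟩
  · obtain ⟨c, rfl⟩ := h4 t
    exact ⟨fun j => toRat (c j), Finset.sum_congr rfl fun j _ =>
      congrArg (· * b j) (pe _ (c j)).symm⟩
  · obtain ⟨F, r, e, w, w'⟩ := h5 E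
    have k : ∀ a, RegAt a F.1 → ord (ι a) E = r * ord a F := fun a ha => by
      obtain ⟨b, rfl⟩ : RegAt a (E.1.map π) := e ▸ ha
      exact (congrArg (ord · E) (pe E.1 b)).trans (w b)
    refine ⟨F, r, e, fun a => ?_, w'⟩
    rcases (Gl.pq (X := X.o) F).ring.mem_or_inv_mem a with c | c
    · exact k a ((Gl.pq_is (X := X.o) F a).1 c)
    · have w1 : ord (ι a)⁻¹ E = r * ord a⁻¹ F :=
        (congrArg (ord · E) (map_inv₀ ι a).symm).trans (k a⁻¹ ((Gl.pq_is (X := X.o) F _).1 c))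
      have a1 : ord a⁻¹ F = -ord a F := (Gl.pq_ord (X := X.o) F _).trans
        ((P297Z.Pl.ord_inv _ _).trans (congrArg _ (Gl.pq_ord (X := X.o) F _).symm))
      have a2 : ord (ι a)⁻¹ E = -ord (ι a) E := (Gl.pq_ord (X := Y.o) E _).trans
        ((P297Z.Pl.ord_inv _ _).trans (congrArg _ (Gl.pq_ord (X := Y.o) E _).symm))
      exact neg_inj.1 (a2.symm.trans (w1.trans (by rw [a1, mul_neg])))

variable {C : ∀ (d : ℕ) (X Z : Var), (X.X ⟶ Z.X) → X.Form d → X.QDiv → Pt Z.X → Prop}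

/-- descent along covers whose degree is bounded in terms of the dimension -/
theorem on_cover (h : OnN C) (J : ℕ → ℕ) : On fun d _ _ f _ B z => Cover (J d) (C d) f B z :=
  (on_covd h J).mono fun _ _ _ _ _ _ _ u => u.old

/-- the same with the hypotheses of the conjecture -/
theorem onN_cover (h : OnN C) (J : ℕ → ℕ) : OnN fun d _ _ f _ B z => Cover (J d) (C d) f B z :=
  (on_cover h J).mono fun _ _ _ _ _ _ _ u => u.2.2

/-- the identity is a cover -/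
theorem Cover.refl {X Z : Var} {d J : ℕ}
    {C : ∀ Y W : Var, (Y.X ⟶ W.X) → Y.Form d → Y.QDiv → Pt W.X → Prop}
    {f : X.X ⟶ Z.X} {ω : X.Form d} {B : X.QDiv} {z : Pt Z.X} (hJ : 1 ≤ J) (hf : Contraction f)
    (h0 : ω.Nonzero) (hB : ∀ E, 0 ≤ B.coeff E) (u : FanoType f ω) (v : NefOver f (-logCan ω B))
    (h : C X Z f ω B z) : Cover J C f B z := by
  classical
  have k : ∀ (y : Pt X.X) (a : St X.X (y.map (𝟙 X.X))), toRat (comap (𝟙 X.X) y a) = toRat a :=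
    fun y a => congrArg toRat (congrArg (fun φ => φ.hom a) (Scheme.Hom.stalkMap_id X.X y))
  refine ⟨X, Z, f, 𝟙 _, 𝟙 _, ω, B, fun _ => 1, inferInstance, inferInstance, Category.id_comp _,
    fun t => ?_, fun E => ⟨E, 1, rfl, fun a => by rw [k]; simp, hB E, by simp⟩, hf, inferInstance,
    by simp, h0, u, v, fun w e => (show w = z from e) ▸ h⟩
  obtain ⟨a, rfl⟩ : RegAt t ((generic X.X).map (𝟙 X.X)) := P270L.S.mem_loc_gen t
  refine ⟨Pi.single ⟨0, hJ⟩ a, ?_⟩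
  rw [Finset.sum_eq_single ⟨0, hJ⟩ (fun j _ c => by rw [k, Pi.single_eq_of_ne c]; simp) (by simp),
    k, Pi.single_eq_same, mul_one]

end Vale.Agent.P283R.Lz
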