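import Vale.Agent.P283R.Tl.Ty42
import Vale.Agent.P283R.Tz.Sfr14
import Vale.Agent.P283R.Tz.Zm8
import Vale.Agent.P283R.Tz.Vtx57
import Vale.Agent.P283R.Tz.Hvy67
import Vale.Agent.P283R.Tz.Lpr52
import Vale.Agent.P283R.Tz.Ser89
import Vale.Agent.P283R.Tz.Dec22
import Vale.Agent.P283R.Tz.Orm45
import Vale.Agent.P283R.Tz.Fir62

/-!
# P283R: the theorems in the words of `Lz/W`, any toric orbit space
-/

open CategoryTheory AlgebraicGeometry

namespace Vale.Agent.P283R.Lz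

open Sl Sl.Var

theorem pq0 : Tl.PQ0 := Tz.pq_of Tz.sf14 Tz.zm8 Tz.vtx57 Tz.hvy67 Tz.lpr52 Tz.ser89 Tz.dec22
  Tz.orm45 Tz.fir62

/-- orbit spaces which are toric or have few Cox generators -/
theorem on_ty (M : ℕ → ℕ) : OnN fun d _ _ f _ _ z => ∃ V, z.In V ∧ TTor (M d) (pre f V) :=
  on_ty_of pq0 M

/-- the classes over an open neighbourhood -/
theorem on_open3y (M : ℕ → ℕ) : OnN fun d X _ f _ _ z => ∃ V, z.In V ∧
    (Sph (pre f V) ∅ ∨ TTor (M d) (pre f V) ∨ IsAffineOpen V ∧ ∃ (S : Var) (π : S.X ⟶ X.X),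
      FinQuot π ∧ Sph (pre (π ≫ f) V) {x | x.map (π ≫ f) = z}) := on_open3y_of pq0 M

end Vale.Agent.P283R.Lz
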