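import Mathlib.AlgebraicGeometry.Morphisms.Etale
import Vale.Agent.P283R.Sl

/-!
# Bounded klt complements: the hypotheses and the conclusion under short names, towers
-/

open CategoryTheory AlgebraicGeometry

namespace Vale.Agent.P283R.Lz

open Sl Sl.Var

variable {X Z : Var} {d : ℕ}

/-- A contraction: a proper surjective morphism over `ℂ` with `f_* O_X = O_Z`. -/
def Contr (f : X.X ⟶ Z.X) : Prop :=
  f ≫ Z.str = X.str ∧ IsProper f ∧ Surjective f ∧ ∀ U, IsIso (f.app U)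

/-- The `ℚ`-Cartier divisor `D` is nef over `Z`: its degree on the curves contracted by `f` is
nonnegative. -/
def Nef (f : X.X ⟶ Z.X) (D : X.PrimeDiv → ℚ) : Prop :=
  ∀ C : Curve X, (∃ t, ∀ z : Pt C.C, (z.map C.ι).map f = t) → ∀ m e, C.IsDeg D m e → 0 ≤ e

/-- `D` is ample over `Z`: some multiple `m D` is Cartier, and `O(m D)` is ample on the inverse
images of the affine open subsets `U` of `Z`: the points `x` of `f⁻¹ U` lie in affine open sets of
the form `{s ≠ 0}`, where `s` is a section of some `O(k m D)` over `f⁻¹ U`. -/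
def Ample (f : X.X ⟶ Z.X) (D : X.PrimeDiv → ℚ) : Prop :=
  ∃ m, 0 < m ∧ (∀ x, ∃ g, LocalEq D m g x) ∧ ∀ U : Z.X.Opens, IsAffineOpen U →
    ∀ x : Pt X.X, x.In (pre f U) → ∃ (k : ℕ) (s : X.K) (W : X.X.Opens), 0 < k ∧
      (∀ y : X.PrimeDiv, y.1.In (pre f U) → 0 ≤ (ord s y : ℚ) + k * m * D y) ∧ IsAffineOpen W ∧
      x.In W ∧ ∀ x' : Pt X.X, x'.In W ↔ x'.In (pre f U) ∧ LocalEq D (k * m) s⁻¹ x'

/-- `X` is of Fano type over `Z`: for some `C` the pair `(X, C)` is klt and `-(K_X + C)` is ample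
over `Z`. -/
def Fano (f : X.X ⟶ Z.X) (ω : X.Form d) : Prop :=
  ∃ C : X.QDiv, Pair (0 < ·) (all X.X) ω C ∧ Ample f (-logCan ω C)

/-- `(X, B)` has a klt `n`-complement over `z`: on `f⁻¹ U`, for some open neighbourhood `U` of `z`,
there is `Λ ≥ B` such that `(f⁻¹ U, Λ)` is klt and `n (K_X + Λ)` is the divisor of a rational
function. -/
def Compl (f : X.X ⟶ Z.X) (ω : X.Form d) (B : X.QDiv) (n : ℕ) (z : Pt Z.X) : Prop :=
  ∃ (U : Z.X.Opens) (Λ : X.QDiv) (φ : X.K), z.In U ∧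
    (∀ y : X.PrimeDiv, y.1.In (pre f U) → B.coeff y ≤ Λ.coeff y) ∧
    Pair (0 < ·) (pre f U) ω Λ ∧ ∀ x : Pt X.X, x.In (pre f U) → LocalEq (logCan ω Λ) n φ x

/-- The least class of morphisms which contains the contractions of relative dimension at most one,
is closed under composition, and contains `g` if it contains `π ≫ g` for a small birational
contraction `π`. -/
inductive Tower : ∀ {X Y : Var}, (X.X ⟶ Y.X) → Prop
  | one {X Y : Var} {g : X.X ⟶ Y.X} : Contr g → dimension X.str ≤ dimension Y.str + 1 → Tower g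
  | comp {X Y W : Var} {g : X.X ⟶ Y.X} {h : Y.X ⟶ W.X} : Tower g → Tower h → Tower (g ≫ h)
  | small {X' X Y : Var} {π : X'.X ⟶ X.X} {g : X.X ⟶ Y.X} (p : Iso X X') : Contr π →
      IsPull π p → (∀ E : X'.PrimeDiv, (E.1.map π).CodimOne) → Tower (π ≫ g) → Tower g

end Vale.Agent.P283R.Lz
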