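import Vale.Agent.P283R.Lz.W

/-!
# Bounded klt complements: spherical varieties, few Cox generators
-/

open CategoryTheory AlgebraicGeometry

namespace Vale.Agent.P283R.Ly

open Sl Sl.Var Lz

/-- The open subset `U` of `X` is a spherical variety, an embedding of `G / H`: the translations
permute the local rings of `U`. -/
def Sph {X : Var} (U : X.X.Opens) : Prop :=
  ∃ (N : ℕ) (L : Type) (_ : Field L) (_ : Algebra ℂ L) (x : Matrix (Fin N) (Fin N) L) (G H : _)
    (l r i : _), Homog (K := X.K) x G H l r i fun t =>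
      ∀ y : Pt X.X, y.In U → ∃ y' : Pt X.X, y'.In U ∧ ∀ a a', t a a' → (RegAt a y ↔ RegAt a' y')

/-- The Weil divisors `D_1, …, D_k` generate the class group of the open subset `U` of `X`, and the
ring of the sections of their combinations over `U` has at most `k + l` generators. -/
def Cox (l : ℕ) {X : Var} (U : X.X.Opens) : Prop :=
  ∃ (k : ℕ) (D : Fin k → X.PrimeDiv →₀ ℤ),
    Gens (k + l) (fun m => {ψ | ψ ≠ 0 → ∀ E : X.PrimeDiv, E.1.In U →
      0 ≤ ord ψ E + ∑ i, m i * D i E}) ∧
    ∀ F, ∃ (m : Fin k → ℤ) (ψ : X.K), ψ ≠ 0 ∧ ∀ E : X.PrimeDiv, E.1.In U →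
      QDiv.coeff (.single F 1) E = (ord ψ E + ∑ i, m i * D i E : ℤ)

end Vale.Agent.P283R.Ly
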