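import Vale.Agent.P283R.Lz.On3
import Vale.Agent.P283R.Lz.Wq
import Vale.Agent.P283R.Lz.Ws
import Vale.Agent.P283R.Uq.All48

/-!
# P283R: the theorems in the words of `Lz/W`, quotients
-/

open CategoryTheory AlgebraicGeometry

namespace Vale.Agent.P283R.Ly

open Sl Sl.Var Lz

theorem Sph.old {X : Var} {U : X.X.Opens} (h : Sph U) : ∃ N, IsSpherical N U := by
  obtain ⟨N, L, _, _, x, G, H, l, r, i, h⟩ := h
  exact ⟨N, L, _, _, x, G, H, l, r, i, ⟨h.1, h.2, h.3, h.4, h.5, h.6, h.7, h.8, h.9⟩, h.10, h.11,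
    h.12, h.13⟩

theorem Sph.new {X : Var} {U : X.X.Opens} {S : Set (Pt X.X)} (h : Lz.Sph U S) : Sph U := by
  obtain ⟨N, L, _, _, x, G, H, l, r, i, h⟩ := h
  exact ⟨N, L, _, _, x, G, H, l, r, i, h.1, h.2, h.3, h.4, h.5, h.6, h.7, h.8, h.9, h.10, h.11,
    h.12, fun g a => (h.13 g a).1⟩

variable {C C' : ∀ (d : ℕ) (Y W : Var), (Y.X ⟶ W.X) → Y.Form d → Pt W.X → Prop}

theorem quo_mono (h : OnN fun d _ _ f _ _ z => QuotOf (C d) f z)
    (i : ∀ d Y W g η w, C' d Y W g η w → C d Y W g η w) :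
    OnN fun d _ _ f _ _ z => QuoOf (C' d) f z :=
  h.mono fun _ _ _ _ _ _ _ ⟨Y, W, π, g, κ, η, w, a, b, c, e, j, k, u⟩ =>
    ⟨Y, W, π, g, κ, η, w, a, b, c, e, j, k, i _ _ _ _ _ _ u⟩

/-- quotients of fibrations of low complexity and of spherical fibrations -/
theorem on_q : OnN fun d _ _ f _ _ z => QuoOf (d := d)
    (fun _ _ g η w => Cplx g η w ∨ ∃ V, w.In V ∧ Sph (pre g V)) f z :=
  quo_mono onN_q fun _ _ _ _ _ _ u => u.imp id fun ⟨V, a, b⟩ => let ⟨N, c⟩ := b.old; ⟨N, V, a, c⟩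

theorem Cox.old {l : ℕ} {Y W : Var} {g : Y.X ⟶ W.X} {w : Pt W.X} {V : W.X.Opens} (a : w.In V)
    (h : Cox l (pre g V)) : Uq.Full l g w :=
  let ⟨k, D, b, c⟩ := h
  ⟨k, k + l, V, D, a, le_rfl, b, c⟩

/-- with few Cox generators -/
theorem on_q2 (M : ℕ → ℕ) : OnN fun d _ _ f _ _ z => QuoOf (d := d)
    (fun _ _ g η w => Cplx g η w ∨ ∃ V, w.In V ∧ (Sph (pre g V) ∨ Cox (M d) (pre g V))) f z :=
  quo_mono (quot_or onN_q (onN_qf M)) fun _ _ _ _ _ _ u => u.elim (fun a => .inl (.inl a))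
    fun ⟨V, a, b⟩ => b.imp (fun b => let ⟨N, c⟩ := b.old; .inr ⟨N, V, a, c⟩) fun b => b.old a

end Vale.Agent.P283R.Ly
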