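import Mathlib.RingTheory.Smooth.Basic
import Mathlib.RingTheory.Ideal.Height
import Mathlib.RingTheory.RegularLocalRing.Defs
import Mathlib.AlgebraicGeometry.Morphisms.Etale
import Mathlib.AlgebraicGeometry.Morphisms.Finite
import Mathlib.Algebra.MvPolynomial.PDeriv
import Mathlib.LinearAlgebra.Matrix.ConjTranspose
import Mathlib.LinearAlgebra.Matrix.Determinant.Basic
import Mathlib.FieldTheory.Galois.Basic
import Vale.Agent.P283R.Sl

/-!
# Bounded klt complements: the words of the classes, in one file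
-/

open CategoryTheory AlgebraicGeometry

namespace Vale.Agent.P283R.Lz

open Sl Sl.Var

section

variable {K L : Type} [Field K] [Algebra ℂ K] [Field L] [Algebra ℂ L] {N k r : ℕ}

/-- `A` is the ring of functions of a quotient `Y / G`: `Y = Spec (S / I)` is a normal complete
intersection in the smooth affine variety `Spec S`, `G` is a finite group of automorphisms of
`Spec S` which preserves `Y` and acts on `Y` freely in codimension one, `i` identifies `A` with the
invariant functions on `Y`; and `p` holds or `Y` is regular in codimension two. -/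
def Quo (p : Prop) (A : Set K) (S : Type) [CommRing S] [Algebra ℂ S] : Prop :=
  ∃ (c : ℕ) (I : Ideal S) (G : Subgroup (S ≃ₐ[ℂ] S)) (i : K →ₐ[ℂ] FractionRing (S ⧸ I)),
    IsDomain S ∧ Algebra.Smooth ℂ S ∧ I.IsPrime ∧
    (I.height = c ∧ ∃ f : Fin c → S, I = Ideal.span (Set.range f)) ∧ IsIntegrallyClosed (S ⧸ I) ∧
    Finite G ∧ (∀ g ∈ G, ∀ s ∈ I, g s ∈ I) ∧
    (∀ g ∈ G, g ≠ 1 → ∀ p : Ideal S, p.IsPrime → I ≤ p → (∀ s, g s - s ∈ p) →
      I.height + 2 ≤ p.height) ∧
    (∀ b, (∃ a ∈ A, i a = b) ↔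
      ∃ s : S, (∀ g ∈ G, g s - s ∈ I) ∧ algebraMap (S ⧸ I) _ (Ideal.Quotient.mk I s) = b) ∧
    (p ∨ ∀ (q : Ideal (S ⧸ I)) [q.IsPrime], q.height ≤ 2 →
      IsRegularLocalRing (Localization.AtPrime q))

/-- The value at the matrix `y` of a polynomial in the entries. -/
noncomputable def ev {R : Type} [CommRing R] [Algebra ℂ R] (y : Matrix (Fin N) (Fin N) R)
    (p : MvPolynomial (Fin N × Fin N) ℂ) : R :=
  MvPolynomial.aeval (fun e => y e.1 e.2) p

/-- `ξ` is tangent at the unit matrix to the Zariski closure of `S`: for a group `S`, an element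
of its Lie algebra. -/
def Lie (S : Set (Matrix (Fin N) (Fin N) ℂ)) (ξ : Matrix (Fin N) (Fin N) ℂ) : Prop :=
  ∀ p, (∀ g ∈ S, ev g p = 0) →
    ∑ e : Fin N × Fin N, ξ e.1 e.2 * ev (1 : Matrix (Fin N) (Fin N) ℂ) (MvPolynomial.pderiv e p) = 0

/-- `G` is a closed connected subgroup of `SL_N` with function field `L`, generic point `x` and
factorial coordinate ring, `l g` and `r g` are the left and the right translations; `G` is
self-adjoint, so reductive, and its Lie algebra is spanned by its upper triangular and its strictly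
lower triangular elements. `K` is the field of the right `H`-invariant functions, the Lie algebras
of the Borel subgroup (upper triangular) and of `H` span the Lie algebra of `G`, and the graphs of
the left translations on `K` satisfy `P`. -/
structure Homog (x : Matrix (Fin N) (Fin N) L) (G H : Set (Matrix (Fin N) (Fin N) ℂ))
    (l r : Matrix (Fin N) (Fin N) ℂ → L ≃ₐ[ℂ] L) (i : K →ₐ[ℂ] L)
    (P : (K → K → Prop) → Prop) : Prop where
  det : x.det = 1
  frac : ∀ a : L, ∃ p q, a = ev x p / ev x q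
  factorial : UniqueFactorizationMonoid
    (Algebra.adjoin ℂ (Set.range fun e : Fin N × Fin N => x e.1 e.2))
  points : ∀ g, g ∈ G ↔ ∀ p, ev x p = 0 → ev g p = 0
  one : 1 ∈ G
  adjoint : ∀ g ∈ G, g.conjTranspose ∈ G
  left : ∀ g ∈ G, ∀ i j, l g (x i j) = ∑ k, g i k • x k j
  right : ∀ g ∈ G, ∀ i j, r g (x i j) = ∑ k, g k j • x i k
  gauss : ∀ ξ, Lie G ξ → ∃ β, (Lie G β ∧ ∀ i j, j < i → β i j = 0) ∧ ∀ i j, i ≤ j → ξ i j = β i j
  sub : H ⊆ G
  inv : ∀ a, (∃ b, i b = a) ↔ ∀ h ∈ H, r h a = a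
  orbit : ∀ ξ, Lie G ξ → ∃ β, (Lie G β ∧ ∀ i j, j < i → β i j = 0) ∧ Lie H (ξ - β)
  acts : ∀ g ∈ G, P fun a a' => l g (i a) = i a'

/-- `F` is the field of the invariants of a finite group of automorphisms of `L`. -/
def Fixed (F : Set L) : Prop :=
  ∃ G : Subgroup (L ≃ₐ[ℂ] L), Finite G ∧ F = IntermediateField.fixedField G

/-- `φ` is a homomorphism of `ℂ`-algebras, `y` are algebraically independent over its image, and
`A` is spanned by its elements of the form `φ(c) y ^ m`. -/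
def Graded (φ : L → K) (y : Fin r → K) (A : Set K) : Prop :=
  (∃ ψ : L →ₐ[ℂ] K, ψ = φ ∧ ∀ p : MvPolynomial (Fin r) L, p.eval₂ ψ y = 0 → p = 0) ∧
    ∀ a ∈ A, a ∈ Submodule.span ℂ {b ∈ A | ∃ (c : L) (m : Fin r → ℤ), b = φ c * ∏ i, y i ^ m i}

/-- The graded ring `⊕ A_m t^m`, `m ∈ ℤ^k`, is generated by `N` homogeneous elements: it is the
image of the polynomial ring in `N` variables under a map `x_j ↦ s_j t^(a_j)`. -/
def Gens (N : ℕ) (A : (Fin k → ℤ) → Set K) : Prop :=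
  ∃ (s : Fin N → K) (a : Fin N → Fin k → ℤ)
    (π : MvPolynomial (Fin N) ℂ →ₐ[ℂ] AddMonoidAlgebra K (Fin k → ℤ)),
    (∀ j, π (.X j) = .single (a j) (s j)) ∧ ∀ F, (∃ p, π p = F) ↔ ∀ m, F.coeff m ∈ A m

end

variable {X Y Z : Var} {d : ℕ}

/-- `D'` and `D` have the same coefficient at prime divisors which correspond under `f`. -/
def Same (f : X.X ⟶ Z.X) (D' : X.PrimeDiv → ℚ) (D : Z.PrimeDiv → ℚ) : Prop :=
  ∀ (E : X.PrimeDiv) (y : Z.PrimeDiv), E.1.map f = y.1 → D' E = D y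

/-- For some étale neighbourhood `e : (W, w) → (Z, z)`, `w` closed, the base change `g : Y → W` of
`f` with the pull back `B'` of `B` satisfies `C` at `w`. -/
def EtLoc (C : ∀ Y W : Var, (Y.X ⟶ W.X) → Y.Form d → Y.QDiv → Pt W.X → Prop)
    (f : X.X ⟶ Z.X) (B : X.QDiv) (z : Pt Z.X) : Prop :=
  ∃ (Y W : Var) (g : Y.X ⟶ W.X) (π : Y.X ⟶ X.X) (e : W.X ⟶ Z.X) (w : Pt W.X) (ω' : Y.Form d)
    (B' : Y.QDiv), (Etale e ∧ e ≫ Z.str = W.str ∧ w.map e = z ∧ w.Closed) ∧
      (IsPullback π g f e ∧ π ≫ X.str = Y.str) ∧ ω'.Nonzero ∧ Same π B'.coeff B.coeff ∧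
      C Y W g ω' B' w

/-- `K_X + B` is `ℚ`-linearly trivial over `Y`. -/
def Triv (g : X.X ⟶ Y.X) (ω : X.Form d) (B : X.QDiv) : Prop :=
  ∀ y : Pt Y.X, ∃ m a, 0 < m ∧ ∀ x : Pt X.X, x.map g = y → LocalEq (logCan ω B) m a x

/-- Every `ℚ`-Cartier Weil divisor `D` is Cartier at the points of the fibre over `z`: the local
class groups of `X` along the fibre have no torsion. -/
def NoTors (f : X.X ⟶ Z.X) (z : Pt Z.X) : Prop :=
  ∀ (D : X.PrimeDiv → ℤ) (x : Pt X.X) m g, x.map f = z → 0 < m →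
    LocalEq (fun E => D E) m g x → ∃ g, LocalEq (fun E => D E) 1 g x

/-- Over a neighbourhood `V` of `z` there is an lc pair `(X, Λ)` with `m (K_X + Λ) = div φ`; `S_i`
are distinct prime divisors which meet the fibre over `z`, `a_i` is the coefficient of `S_i` in
`Λ`, a multiple of every prime divisor is linearly equivalent over a neighbourhood of `z` to an
integral combination of `ρ` fixed Weil divisors, and the complexity `c = dim X + ρ - ∑ a_i` is less
than two, or `c ≤ 3`, `Z` is not a point and `A_{X,Λ}(E) > c - 2` for all prime divisors `E` over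
`X` with centre in the fibre over `z`. -/
def Cplx (f : X.X ⟶ Z.X) (ω : X.Form d) (z : Pt Z.X) : Prop :=
  ∃ (V : Z.X.Opens) (Λ : X.QDiv) (m : ℕ) (φ : X.K) (S : Finset X.PrimeDiv) (ρ : ℕ)
    (D : Fin ρ → X.PrimeDiv →₀ ℤ) (c : ℚ), z.In V ∧ Pair (0 ≤ ·) (pre f V) ω Λ ∧ 0 < m ∧
    (∀ x : Pt X.X, x.In (pre f V) → LocalEq (logCan ω Λ) m φ x) ∧ (∀ E ∈ S, E.1.map f ⤳ z) ∧
    (∀ F, ∃ (U : Z.X.Opens) (r : ℕ), z.In U ∧ 0 < r ∧ ∃ (a : Fin ρ → ℤ) (ψ : X.K), ψ ≠ 0 ∧
      ∀ E : X.PrimeDiv, E.1.In (pre f U) →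
        QDiv.coeff (.single F r) E = (ord ψ E + ∑ i, a i * D i E : ℤ)) ∧
    c = d + ρ - ∑ E ∈ S, Λ.coeff E ∧
    (c < 2 ∨ c ≤ 3 ∧ z ≠ generic Z.X ∧ ∀ (M : Model X) (E : M.Y.PrimeDiv),
      (E.1.map M.π).map f = z →
        (c : ℝ) - 2 < 1 + (formOrd ω M.pull E - (ord (M.pull.app φ) E : ℝ) / m))

/-- The open subset `U` of `X` is a spherical variety, an embedding of `G / H`: the translations
permute the local rings of `U`, and they do not change the values of the regular functions on `U`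
at the points of `S`. -/
def Sph (U : X.X.Opens) (S : Set (Pt X.X)) : Prop :=
  ∃ (N : ℕ) (L : Type) (_ : Field L) (_ : Algebra ℂ L) (x : Matrix (Fin N) (Fin N) L) (G H : _)
    (l r i : _), Homog (K := X.K) x G H l r i fun t =>
      (∀ y : Pt X.X, y.In U → ∃ y' : Pt X.X, y'.In U ∧
        ∀ a a', t a a' → (RegAt a y ↔ RegAt a' y')) ∧
      ∀ a ∈ regOn U, ∀ a', t a a' → a' ≠ a → ∀ y ∈ S, ¬ RegAt (a' - a)⁻¹ y

/-- `π : Y → X` is the quotient by a finite group which acts freely in codimension one. -/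
def FinQuot (π : Y.X ⟶ X.X) : Prop :=
  IsFinite π ∧ Surjective π ∧ π ≫ X.str = Y.str ∧ Fixed {g | ∃ y a, g = toRat (comap π y a)} ∧
    ∀ E : Y.PrimeDiv, ∃ F : X.PrimeDiv, E.1.map π = F.1 ∧
      ∀ a, ord (toRat (comap π E.1 a)) E = ord (toRat a) F

/-- `K_Z = div η` is `ℚ`-Cartier at `z`, and for all prime divisors `E` over `Z` with centre `z` and
all `e ≥ 1` such that `k = e A_Z(E)` is an integer, `k > 1 + b e ord_E(m_z)`; `x` is an element of
the maximal ideal `m_z`. -/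
def Mild (d b : ℕ) (Z : Var) (z : Pt Z.X) : Prop :=
  ∃ (η : Z.Form d) (m : ℕ) (g : Z.K), η.Nonzero ∧ 0 < m ∧ LocalEq (logCan η 0) m g z ∧
    ∀ (M : Model Z) (E : M.Y.PrimeDiv), E.1.map M.π = z → ∃ x, RegAt x z ∧ ¬ RegAt x⁻¹ z ∧
      ∀ e k : ℤ, 0 < e → e * (1 + (formOrd η M.pull E - (ord (M.pull.app g) E : ℝ) / m)) = k →
        1 + b * e * ord (M.pull.app x) E < k

end Vale.Agent.P283R.Lz
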