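import Vale.Agent.P283R.Lz.On6
import Vale.Agent.P283R.Lz.Bc69
import Vale.Agent.P283R.Dc.On69

/-!
# P283R: the theorems in the words of `Lz/W`, nested towers and their quotients
-/

open CategoryTheory AlgebraicGeometry

namespace Vale.Agent.P283R.Lz

open Sl Sl.Var

theorem Stage.old {J : ℕ} {X Y : Var} {g : X.X ⟶ Y.X} (h : Stage J g) : Sl.Stages J g := by
  induction h with
  | one a b => exact .one a b
  | comp _ _ a b => exact .comp a b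
  | small p a b c _ i => exact .small p a b c i
  | cover b c e u v w _ i => exact .cover b c e u v w i

theorem Steps.stage {J : ℕ} {X Y : Var} {g : X.X ⟶ Y.X} (h : Steps J g) : Stage J g := by
  induction h with
  | one a b => exact .one a b
  | comp _ _ a b => exact .comp a b
  | small p a b c _ i => exact .small p a b c i
  | etale b a c e f k l _ i => exact .cover b a e (.inl ⟨c, f⟩) k l i

/-- nested towers over a class -/
theorem stage (J : ℕ → ℕ) {C : ∀ (d : ℕ) (X Z : Var), (X.X ⟶ Z.X) → X.Form d → Pt Z.X → Prop}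
    (h : OnN fun d X Z f ω _ z => C d X Z f ω z) : OnN fun d Y W g η D w =>
      ∃ (e : ℕ) (T : Var) (a : Y.X ⟶ T.X) (h : T.X ⟶ W.X) (θ : T.Form e),
        dimension T.str = e ∧ 1 ≤ e ∧ θ.Nonzero ∧ a ≫ h = g ∧ Stage (J d) a ∧ Triv a η D ∧
        C e T W h θ w :=
  (h.stage J).mono fun _ _ _ _ _ _ _ ⟨e, T, a, h, θ, b1, b2, b3, b4, b5, b6⟩ =>
    ⟨e, T, a, h, θ, b1, b2, b3, b4, b5.old, b6⟩

/-- nested towers over a class of germs -/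
theorem stage_germ (J : ℕ → ℕ) {S : ℕ → ∀ Z : Var, Pt Z.X → Prop}
    (h : On fun d _ Z f ω B z => Crepant f ω B z ∧ S d Z z) : OnN fun d _ Z f ω B z =>
    ∃ e : ℕ, dimension Z.str = e ∧ 1 ≤ e ∧ Stage (J d) f ∧ Triv f ω B ∧ S e Z z :=
  (onN_stage J h).mono fun _ _ _ _ _ _ _ ⟨e, a, b, c, t⟩ => ⟨e, a, b, c.old, t⟩

/-- nested towers over a germ -/
theorem on_germC (J : ℕ → ℕ) : OnN fun d _ W g η D w =>
    ∃ e : ℕ, dimension W.str = e ∧ 1 ≤ e ∧ Stage (J d) g ∧ Triv g η D ∧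
      ((∃ (U : _) (S : Type) (_ : CommRing S) (_ : Algebra ℂ S), IsAffineOpen U ∧ w.In U ∧
        Quo (e = d ∧ Same g D.coeff 0) (regOn U) S) ∨ 3 ≤ e ∧ Mild e (e - 3) W w) :=
  mono_cl (onN_germC69 J) fun _ _ _ _ _ _ _ k _ ⟨e, a, b, c, t, u⟩ =>
    ⟨e, a, b, c.old, t, u.imp (fun ⟨_, _, _, _, i, j, v⟩ => v.old k i j) id⟩

/-- the shape of `literalN` -/
theorem literalSc (J : ℕ → ℕ) {C : ∀ (d : ℕ) (X Z : Var), (X.X ⟶ Z.X) → X.Form d → Pt Z.X → Prop}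
    (h : OnN fun d X Z f ω _ z => C d X Z f ω z) :
    ∀ d : ℕ, 1 ≤ d → ∀ ε : ℝ, 0 < ε → ∀ R : Finset ℚ, (∀ r ∈ R, 0 ≤ r ∧ r ≤ 1) →
    ∃ n : ℕ, 1 ≤ n ∧ ∀ (X Z : Var) (f : X.X ⟶ Z.X) (ω : X.Form d) (B : X.QDiv)
      (z : Pt Z.X), dimension X.str = d → ω.Nonzero → Pair (ε ≤ ·) (all X.X) ω B →
      (∀ y, B.coeff y ≠ 0 → B.coeff y ∈ R) → Contr f → Fano f ω →
      Nef f (-logCan ω B) → z.Closed →
      EtLoc (fun Y W g (η : Y.Form d) D w =>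
        (∃ (e : ℕ) (T : Var) (a : Y.X ⟶ T.X) (h : T.X ⟶ W.X) (θ : T.Form e),
          dimension T.str = e ∧ 1 ≤ e ∧ θ.Nonzero ∧ a ≫ h = g ∧ Stage (J d) a ∧ Triv a η D ∧
          C e T W h θ w) ∨
        ∃ e : ℕ, dimension W.str = e ∧ 1 ≤ e ∧ Stage (J d) g ∧ Triv g η D ∧
          ((∃ (U : _) (S : Type) (_ : CommRing S) (_ : Algebra ℂ S), IsAffineOpen U ∧ w.In U ∧
            Quo (e = d ∧ Same g D.coeff 0) (regOn U) S) ∨ 3 ≤ e ∧ Mild e (e - 3) W w)) f B z →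
      Compl f ω B n z := litB ((stage J h).or (on_germC J))

theorem lifts_stage (J : ℕ → ℕ) : Lifts fun d _ _ g => Stage (J d) g := fun _ h => stage_germ J h

/-- nested towers over a class or over a quotient germ, after an étale base change -/
theorem literalFc (J M : ℕ → ℕ)
    {C : ∀ (d : ℕ) (X Z : Var), (X.X ⟶ Z.X) → X.Form d → Pt Z.X → Prop}
    (h : OnN fun d X Z f ω _ z => C d X Z f ω z) :
    ∀ d : ℕ, 1 ≤ d → ∀ ε : ℝ, 0 < ε → ∀ R : Finset ℚ, (∀ r ∈ R, 0 ≤ r ∧ r ≤ 1) →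
    ∃ n : ℕ, 1 ≤ n ∧ ∀ (X Z : Var) (f : X.X ⟶ Z.X) (ω : X.Form d) (B : X.QDiv)
      (z : Pt Z.X), dimension X.str = d → ω.Nonzero → Pair (ε ≤ ·) (all X.X) ω B →
      (∀ y, B.coeff y ≠ 0 → B.coeff y ∈ R) → Contr f → Fano f ω →
      Nef f (-logCan ω B) → z.Closed →
      EtLoc (fun Y W g (η : Y.Form d) D w =>
        (∃ (e : ℕ) (T : Var) (a : Y.X ⟶ T.X) (h : T.X ⟶ W.X) (θ : T.Form e),
          dimension T.str = e ∧ 1 ≤ e ∧ θ.Nonzero ∧ a ≫ h = g ∧ Stage (J d) a ∧ Triv a η D ∧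
          C e T W h θ w) ∨
        ∃ e : ℕ, dimension W.str = e ∧ 1 ≤ e ∧ Stage (J d) g ∧ Triv g η D ∧
          ∃ (S : Var) (π : S.X ⟶ W.X), FinQuot π ∧ (EmbDim (M e) π w ∧
            (NoTors π w ∨ e = d ∧ Same g D.coeff 0 ∧ ∃ θ : S.Form e, θ.Nonzero ∧
              ∀ x : Pt S.X, x.map π = w → ∃ a, LocalEq (logCan θ 0) 1 a x) ∨
            3 ≤ e ∧ ∃ y, (∀ x : Pt S.X, x.map π = w ↔ x = y) ∧
              Sl.Mild e 1 (e - 3) S y)) f B z →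
      Compl f ω B n z :=
  litB ((stage J h).or ((lifts_stage J).germQ M (fun _ => 1) fun _ => le_rfl))

/-- the same with the mild index one covers -/
theorem literalEc (J M : ℕ → ℕ)
    {C : ∀ (d : ℕ) (X Z : Var), (X.X ⟶ Z.X) → X.Form d → Pt Z.X → Prop}
    (h : OnN fun d X Z f ω _ z => C d X Z f ω z) :
    ∀ d : ℕ, 1 ≤ d → ∀ ε : ℝ, 0 < ε → ∀ R : Finset ℚ, (∀ r ∈ R, 0 ≤ r ∧ r ≤ 1) →
    ∃ n : ℕ, 1 ≤ n ∧ ∀ (X Z : Var) (f : X.X ⟶ Z.X) (ω : X.Form d) (B : X.QDiv)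
      (z : Pt Z.X), dimension X.str = d → ω.Nonzero → Pair (ε ≤ ·) (all X.X) ω B →
      (∀ y, B.coeff y ≠ 0 → B.coeff y ∈ R) → Contr f → Fano f ω →
      Nef f (-logCan ω B) → z.Closed →
      EtLoc (fun Y W g (η : Y.Form d) D w =>
        (∃ (e : ℕ) (T : Var) (a : Y.X ⟶ T.X) (h : T.X ⟶ W.X) (θ : T.Form e),
          dimension T.str = e ∧ 1 ≤ e ∧ θ.Nonzero ∧ a ≫ h = g ∧ Stage (J d) a ∧ Triv a η D ∧
          C e T W h θ w) ∨
        ∃ e : ℕ, dimension W.str = e ∧ 1 ≤ e ∧ Stage (J d) g ∧ Triv g η D ∧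
          ((∃ (S : Var) (π : S.X ⟶ W.X), FinQuot π ∧ EmbDim (M e) π w ∧
            (NoTors π w ∨ e = d ∧ Same g D.coeff 0 ∧ ∃ θ : S.Form e, θ.Nonzero ∧
              ∀ x : Pt S.X, x.map π = w → ∃ a, LocalEq (logCan θ 0) 1 a x)) ∨
            3 ≤ e ∧ Mild e (e - 3) W w)) f B z →
      Compl f ω B n z :=
  litB ((stage J h).or ((lifts_stage J).germE M (fun _ => 1) (fun _ => le_rfl) cr_mild))

end Vale.Agent.P283R.Lz
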