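import Vale.Agent.P283R.Lz.Wr

/-!
# Bounded klt complements: chains of resolved towers
-/

open CategoryTheory AlgebraicGeometry

namespace Vale.Agent.P283R.Lz

open Sl Sl.Var

/-- Compositions of at most `n + 1` morphisms of the class `Res J`. -/
inductive Stages (J : ℕ) : ℕ → ∀ {d : ℕ} {X Y : Var}, (X.X ⟶ Y.X) → X.Form d → Prop
  | one {n d : ℕ} {X Y : Var} {g : X.X ⟶ Y.X} {ω : X.Form d} : Res J g ω → Stages J n g ω
  | cons {n d e : ℕ} {X M Y : Var} {a : X.X ⟶ M.X} {h : M.X ⟶ Y.X} {ω : X.Form d}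
      (θ : M.Form e) : dimension M.str = e → θ.Nonzero → Res J a ω → Stages J n h θ →
      Stages J (n + 1) (a ≫ h) ω

end Vale.Agent.P283R.Lz
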