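import Vale.Agent.P283R.Lz.Or
import Vale.Agent.P283R.Lz.Wn
import Vale.Agent.P283R.Rs.Td55

/-!
# P283R: the theorems on chains of resolved towers
-/

open CategoryTheory AlgebraicGeometry

namespace Vale.Agent.P283R.Lz

open Sl Sl.Var

/-- one more step over a class which depends on the boundary -/
theorem R55.step {T : ∀ (d : ℕ) (X Y : Var), (X.X ⟶ Y.X) → X.Form d → Prop} (H : Rs.Gw T)
    {C : ∀ (d : ℕ) (X Z : Var), (X.X ⟶ Z.X) → X.Form d → X.QDiv → Pt Z.X → Prop} (h : OnN C) :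
    OnN fun d X Z f ω B z => ∃ (e : ℕ) (Y : Var) (a : X.X ⟶ Y.X) (h : Y.X ⟶ Z.X) (θ : Y.Form e),
      dimension Y.str = e ∧ 1 ≤ e ∧ θ.Nonzero ∧ a ≫ h = f ∧ T d X Y a ω ∧ Triv a ω B ∧
      ∀ Δ, (∀ (W : Var) (k : Y.X ⟶ W.X), Triv (a ≫ k) ω B → Triv k θ Δ) → C e Y Z h θ Δ z := by
  intro d hd ε hε R hR
  obtain ⟨n, hn, K⟩ := H.on90 h d hd ε hε R hR
  refine ⟨n, hn, fun X Z f ω B z a b c i s t u => K X Z f ω B z a b c i s t ?_⟩
  obtain ⟨ft, v, e, Y, g, k, η, b2, b1, b3, rfl, w, b7, b8⟩ := u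
  have b5 := H.ctr90 w
  have b6 := b5.of_comp s
  have := b5.2.2.1
  obtain ⟨p, hp⟩ := Cf.Fto.exists_pe (X := X.o) (Y := Y.o) g
  exact ⟨e, Y, g, k, η, p, b1, b2, b3, rfl, b6, hp, w, ft, b7, fun Δ c7 c8 =>
    ⟨H.fano90 w b6.2.2.1 hp a b2 b1 b b3 ft,
      (nefOver_iff k _).2 (Cf.nef X.o Y.o g p b5 hp Z.o k _ _
        (Eb.logCan_fin (X := Y.o) b1 b2 b3 Δ) (fun y => c7.2.1 y trivial) c8
        ((nefOver_iff _ _).1 v)), b8 Δ fun W k' t =>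
      Rs.T55.down (X := X.o) (Y := Y.o) (W := W.o) b5 hp hd a b (fun y => c7.2.1 y trivial) c8 t⟩⟩

theorem R55.up {d : ℕ} {X Y W : Var} {g : X.X ⟶ Y.X} {h : Y.X ⟶ W.X} {ω : X.Form d} {B : X.QDiv}
    (t : Triv (g ≫ h) ω B) : Triv g ω B := Rs.T55.up (X := X.o) (Y := Y.o) (W := W.o) t

theorem Stages.ctr {J n d : ℕ} {X Y : Var} {g : X.X ⟶ Y.X} {ω : X.Form d} (h : Stages J n g ω) :
    Contraction g := by
  induction h with
  | one a => exact a.1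
  | cons _ _ _ a _ i => exact Contraction.comp a.1 i

theorem R55.cls (J n : ℕ) {C : ∀ (d : ℕ) (X Z : Var), (X.X ⟶ Z.X) → X.Form d → Pt Z.X → Prop}
    (h : OnN fun d X Z f ω _ z => C d X Z f ω z) : OnN fun _ Y W g η D w =>
      ∃ (e : ℕ) (T : Var) (a : Y.X ⟶ T.X) (h : T.X ⟶ W.X) (θ : T.Form e),
        dimension T.str = e ∧ 1 ≤ e ∧ θ.Nonzero ∧ a ≫ h = g ∧ Stages J n a η ∧ Triv a η D ∧
        C e T W h θ w := by
  induction n with
  | zero =>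
    refine (res (fun _ => J) h).mono fun _ _ _ _ _ _ _ ⟨e, T, a, k, θ, b1, b2, b3, b4, c, u⟩ => ?_
    cases c with
    | one c => exact ⟨e, T, a, k, θ, b1, b2, b3, b4, c, u⟩
  | succ n i =>
    refine ((res (fun _ => J) h).or (R55.step (R55.gw fun _ => J) i)).mono
      fun _ _ _ _ _ _ _ ⟨e, T, a, k, θ, b1, b2, b3, b4, c, t, u⟩ => ?_
    cases c with
    | one c => exact .inl ⟨e, T, a, k, θ, b1, b2, b3, b4, c, t, u⟩
    | cons κ m κ0 r c =>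
      exact .inr ⟨_, _, _, _ ≫ k, κ, m, b2.trans (c.ctr.dim_le m b1), κ0,
        (Category.assoc _ _ _).symm.trans b4, r, R55.up t,
        fun Δ s => ⟨e, T, _, k, θ, b1, b2, b3, rfl, c, s _ _ t, u⟩⟩

theorem R55.germ (J n : ℕ) {S : ℕ → ∀ Z : Var, Pt Z.X → Prop}
    (h : On fun d _ Z f ω B z => Crepant f ω B z ∧ S d Z z) : OnN fun _ _ Z f ω B z =>
    ∃ e : ℕ, dimension Z.str = e ∧ 1 ≤ e ∧ Stages J n f ω ∧ Triv f ω B ∧ S e Z z := by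
  induction n with
  | zero =>
    refine (res_germ (fun _ => J) h).mono fun _ _ _ _ _ _ _ ⟨e, b1, b2, c, u⟩ => ?_
    cases c with
    | one c => exact ⟨e, b1, b2, c, u⟩
  | succ n i =>
    refine ((res_germ (fun _ => J) h).or (R55.step (R55.gw fun _ => J) i)).mono
      fun _ _ Z _ _ _ _ ⟨e, b1, b2, c, t, u⟩ => ?_
    cases c with
    | one c => exact .inl ⟨e, b1, b2, c, t, u⟩
    | cons κ m κ0 r c =>
      exact .inr ⟨_, _, _, _, κ, m, b2.trans (c.ctr.dim_le m b1), κ0, rfl, r,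
        R55.up t, fun Δ s => ⟨e, b1, b2, c, s _ _ t, u⟩⟩

/-- chains over a class -/
theorem stages (J n : ℕ → ℕ)
    {C : ∀ (d : ℕ) (X Z : Var), (X.X ⟶ Z.X) → X.Form d → Pt Z.X → Prop}
    (h : OnN fun d X Z f ω _ z => C d X Z f ω z) : OnN fun d Y W g η D w =>
      ∃ (e : ℕ) (T : Var) (a : Y.X ⟶ T.X) (h : T.X ⟶ W.X) (θ : T.Form e),
        dimension T.str = e ∧ 1 ≤ e ∧ θ.Nonzero ∧ a ≫ h = g ∧ Stages (J d) (n d) a η ∧
        Triv a η D ∧ C e T W h θ w := fun d => R55.cls (J d) (n d) h d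

/-- chains over a class of germs -/
theorem stages_germ (J n : ℕ → ℕ) {S : ℕ → ∀ Z : Var, Pt Z.X → Prop}
    (h : On fun d _ Z f ω B z => Crepant f ω B z ∧ S d Z z) : OnN fun d _ Z f ω B z =>
    ∃ e : ℕ, dimension Z.str = e ∧ 1 ≤ e ∧ Stages (J d) (n d) f ω ∧ Triv f ω B ∧ S e Z z :=
  fun d => R55.germ (J d) (n d) h d

end Vale.Agent.P283R.Lz
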