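import Vale.Agent.P283R.Lz.On5
import Vale.Agent.P283R.Lz.Kp
import Vale.Agent.P283R.Dn.Brg96

/-!
# P283R: nested towers whose degree is bounded in terms of the dimension and of `ε`
-/

open CategoryTheory AlgebraicGeometry

namespace Vale.Agent.P283R.Lz

open Sl Sl.Var

theorem Steps.le {J J' : ℕ} {X Y : Var} {g : X.X ⟶ Y.X} (h : Steps J g) (l : J ≤ J') :
    Steps J' g := .new (h.old.mono l)

/-- nested towers over a class, with a real bound for the degree -/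
theorem nestE {a : ℝ} (ha : 0 < a) (b : ℕ → ℝ)
    {C : ∀ (d : ℕ) (X Z : Var), (X.X ⟶ Z.X) → X.Form d → Pt Z.X → Prop}
    (h : OnN fun d X Z f ω _ z => C d X Z f ω z) : OnN fun d Y W g η D w =>
      ∃ (e J : ℕ) (T : Var) (p : Y.X ⟶ T.X) (h : T.X ⟶ W.X) (θ : T.Form e),
        dimension T.str = e ∧ 1 ≤ e ∧ θ.Nonzero ∧ p ≫ h = g ∧ J * a ≤ b d ∧ Steps J p ∧
        Triv p η D ∧ C e T W h θ w :=
  (nest (fun d => ⌈b d / a⌉₊) h).mono
    fun _ _ _ _ _ _ _ ⟨e, _, T, p, h, θ, b1, b2, b3, b4, l, b5, b6⟩ =>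
      ⟨e, T, p, h, θ, b1, b2, b3, b4, b5.le (Nat.cast_le.1
        (((le_div_iff₀ ha).2 l).trans (Nat.le_ceil _))), b6⟩

end Vale.Agent.P283R.Lz
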