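import Vale.Agent.P283R.Lz.B

/-!
# Bounded klt complements: towers after an étale base change
-/

open CategoryTheory AlgebraicGeometry

namespace Vale.Agent.P283R.Lz

open Sl Sl.Var

/-- `g : X → Y` is a contraction which becomes a tower after the base change `π : X' → X` along an
étale morphism `e : Y' → Y`, not necessarily surjective; the degree of `π` is at most `J`: the
function field of `X'` is spanned by `J` elements over the pull back `p` of that of `X`. -/
def Geo (J : ℕ) {X Y : Var} (g : X.X ⟶ Y.X) : Prop :=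
  Contr g ∧ ∃ (X' Y' : Var) (g' : X'.X ⟶ Y'.X) (π : X'.X ⟶ X.X) (e : Y'.X ⟶ Y.X)
    (p : X.K →+* X'.K), Etale e ∧ e ≫ Y.str = Y'.str ∧
    (IsPullback π g' g e ∧ π ≫ X.str = X'.str) ∧
    (∀ (y : Pt X'.X) (a : St X.X (y.map π)), p (toRat a) = toRat (comap π y a)) ∧
    (∃ b : Fin J → X'.K, ∀ u, ∃ c : Fin J → X.K, u = ∑ j, p (c j) * b j) ∧ Tower g'

end Vale.Agent.P283R.Lz
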