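import Vale.Agent.P283R.Lz.Cv2

/-!
# P283R: the shape of the literal file, with a cover
-/

open CategoryTheory AlgebraicGeometry

namespace Vale.Agent.P283R.Lz

open Sl Sl.Var

/-- the shape of `literal`, after an étale base change and a finite cover -/
theorem literalCv (J : ℕ → ℕ)
    {C : ∀ (d : ℕ) (X Z : Var), (X.X ⟶ Z.X) → X.Form d → Pt Z.X → Prop}
    (h : OnN fun d X Z f ω _ z => C d X Z f ω z) :
    ∀ d : ℕ, 1 ≤ d → ∀ ε : ℝ, 0 < ε → ∀ R : Finset ℚ, (∀ r ∈ R, 0 ≤ r ∧ r ≤ 1) →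
    ∃ n : ℕ, 1 ≤ n ∧ ∀ (X Z : Var) (f : X.X ⟶ Z.X) (ω : X.Form d) (B : X.QDiv)
      (z : Pt Z.X), dimension X.str = d → ω.Nonzero → Pair (ε ≤ ·) (all X.X) ω B →
      (∀ y, B.coeff y ≠ 0 → B.coeff y ∈ R) → Contraction f → FanoType f ω →
      NefOver f (-logCan ω B) → z.Closed →
      EtLoc (fun _ _ f' (_ : Form _ d) B' z' => Cover (J d) (fun Y W g (η : Y.Form d) D w =>
        (∃ (e : ℕ) (T : Var) (a : Y.X ⟶ T.X) (h : T.X ⟶ W.X) (θ : T.Form e),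
          dimension T.str = e ∧ 1 ≤ e ∧ θ.Nonzero ∧ a ≫ h = g ∧ Tower a ∧ Triv a η D ∧
          C e T W h θ w) ∨
        ∃ e : ℕ, dimension W.str = e ∧ 1 ≤ e ∧ Tower g ∧ Triv g η D ∧
          ((∃ (U : _) (S : Type) (_ : CommRing S) (_ : Algebra ℂ S), IsAffineOpen U ∧ w.In U ∧
            Quo (e = d ∧ Same g D.coeff 0) (regOn U) S) ∨ 3 ≤ e ∧ Mild e (e - 3) W w))
        f' B' z') f B z →
      HasKltComplement f ω B n z := lit (onN_cover ((steps h).or on_germ) J)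

end Vale.Agent.P283R.Lz
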