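import Vale.Agent.P283R.Lz.On4
import Vale.Agent.P283R.Lz.Wb
import Vale.Agent.P283R.Uq.Any32
import Vale.Agent.P283R.Uq.Frd32

/-!
# P283R: the theorems in the words of `Lz/W`, quotients with any fibre
-/

open CategoryTheory AlgebraicGeometry

namespace Vale.Agent.P283R.Ly

open Sl Sl.Var Lz

variable {C : ∀ (d : ℕ) (Y W : Var), (Y.X ⟶ W.X) → Y.Form d → Pt W.X → Prop}

theorem quoBy_of {d : ℕ} {X Z : Var} {f : X.X ⟶ Z.X} {z : Pt Z.X} (h : QuoOf (C d) f z) :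
    QuoBy (C d) f z :=
  let ⟨Y, W, π, g, κ, η, w, a, b, c, e, j⟩ := h
  ⟨Y, W, π, g, κ, η, w, a, b, c, (e w).2 rfl, j⟩

theorem on_by {l : ℕ → ℕ} (h : Uq.FRD l C) : OnN fun d _ _ f _ _ z => QuoBy (C d) f z :=
  Uq.ona32 h

theorem frd_sp : Uq.FRD (fun d => Sg.ell d + 1 + 2) fun _ _ _ g _ w => ∃ V, w.In V ∧ Sph (pre g V) :=
  Uq.frd_s.mono fun _ _ _ _ _ _ ⟨V, a, b⟩ => let ⟨N, c⟩ := b.old; ⟨N, V, a, c⟩

/-- quotients of fibrations of low complexity and of spherical fibrations -/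
theorem on_b : OnN fun d _ _ f _ _ z => QuoBy (d := d)
    (fun _ _ g η w => Cplx g η w ∨ ∃ V, w.In V ∧ Sph (pre g V)) f z :=
  on_by (C := fun _ _ _ g η w => Cplx g η w ∨ ∃ V, w.In V ∧ Sph (pre g V))
    (Uq.FRD.or (C := fun _ _ _ g η w => Cplx g η w) Uq.frd_m frd_sp)

/-- with few Cox generators -/
theorem on_b2 (M : ℕ → ℕ) : OnN fun d _ _ f _ _ z => QuoBy (d := d)
    (fun _ _ g η w => Cplx g η w ∨ ∃ V, w.In V ∧ (Sph (pre g V) ∨ Cox (M d) (pre g V))) f z :=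
  on_by (C := fun d _ _ g η w =>
      Cplx g η w ∨ ∃ V, w.In V ∧ (Sph (pre g V) ∨ Cox (M d) (pre g V)))
    ((Uq.FRD.or (C := fun _ _ _ g η w => Cplx g η w) Uq.frd_m (frd_sp.or (Uq.frd_f M))).mono
      fun _ _ _ _ _ _ u => u.imp id fun ⟨V, a, b⟩ => b.imp (fun b => ⟨V, a, b⟩) fun b => b.old a)

end Vale.Agent.P283R.Ly
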