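import Vale.Agent.P283R.Lz.We
import Vale.Agent.P283R.Uq.Frd32

/-!
# P283R: spherical varieties and their quotients in the short word
-/

open CategoryTheory AlgebraicGeometry

namespace Vale.Agent.P283R.Lz

open Sl Sl.Var

theorem Emb.old {X : Var} {U : X.X.Opens} (h : Emb U) : Sph U ∅ := by
  obtain ⟨N, L, _, _, x, G, H, l, r, i, h⟩ := h
  exact ⟨N, L, _, _, x, G, H, l, r, i, h.1, h.2, h.3, h.4, h.5, h.6, h.7, h.8, h.9, h.10, h.11,
    h.12, fun g a => ⟨h.13 g a, fun _ _ _ _ _ _ c => c.elim⟩⟩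

theorem Emb.new {X : Var} {U : X.X.Opens} {S : Set (Pt X.X)} (h : Sph U S) : Emb U := by
  obtain ⟨N, L, _, _, x, G, H, l, r, i, h⟩ := h
  exact ⟨N, L, _, _, x, G, H, l, r, i, h.1, h.2, h.3, h.4, h.5, h.6, h.7, h.8, h.9, h.10, h.11,
    h.12, fun g a => (h.13 g a).1⟩

theorem on_emb : OnN fun _ _ _ f _ _ z => ∃ V, z.In V ∧ Emb (pre f V) :=
  on_sp.mono fun _ _ _ _ _ _ _ ⟨V, a, b⟩ => ⟨V, a, b.old⟩

theorem frd_e : Uq.FRD (fun d => Sg.ell d + 1 + 2) fun _ _ _ g _ w =>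
    ∃ V, w.In V ∧ Emb (pre g V) :=
  Uq.frd_z.mono fun _ _ _ _ _ _ ⟨V, a, b⟩ => ⟨V, a, b.old⟩

/-- **the quotients of varieties of low complexity and of spherical varieties** -/
theorem on_quotE : OnN fun d _ _ f _ _ z => QuotOf (d := d)
    (fun _ _ g η w => Cplx g η w ∨ ∃ V, w.In V ∧ Emb (pre g V)) f z :=
  Uq.onq32 (C := fun _ _ _ g η w => Cplx g η w ∨ ∃ V, w.In V ∧ Emb (pre g V))
    (Uq.FRD.or (C := fun _ _ _ g η w => Cplx g η w) Uq.frd_m frd_e)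

end Vale.Agent.P283R.Lz
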