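import Vale.Agent.P283R.Lz.Wk
import Vale.Agent.P283R.Dg.Lk76

/-!
# P283R: the linked data in the words of `Lz/Wk`
-/

open CategoryTheory AlgebraicGeometry

namespace Vale.Agent.P283R.Lz

open Sl Sl.Var

theorem Fibre.old {S T X Z : Var} {F : T.X ⟶ S.X} {t : T.K} {D : T.QDiv} {s : Pt S.X}
    {f : X.X ⟶ Z.X} {B : X.QDiv} {z : Pt Z.X} (h : Fibre F t D s f B z) : FibreAt F t D s f B z := by
  obtain ⟨i, j, c, _, rfl, h⟩ := h
  exact ⟨i, j, c, h⟩

variable {C : ∀ (d : ℕ) (X Z : Var), (X.X ⟶ Z.X) → X.Form d → X.QDiv → Pt Z.X → Prop} {ε : ℝ}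
  {R : Finset ℚ}

theorem Linked.old {d X Z f ω B z} (h : Linked ε R C d X Z f ω B z) :
    Sl.Linked ε R C d X Z f ω B z := by
  induction h with
  | base a b => exact .base a b
  | total t _ a b i => exact .total t i a b.old
  | near Ω t _ a b c e i =>
    exact .near Ω t i a b.old c fun U u => (e U u).imp fun _ v => ⟨v.1, v.2.old⟩
  | model _ a b i => exact .model i a b
  | etale π e _ a b c g i => exact .etale π e i a b c g

theorem link
    (h : On fun d X Z f ω B z => FanoType f ω ∧ NefOver f (-logCan ω B) ∧ C d X Z f ω B z)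
    (d : ℕ) (hε : 0 < ε) (hR : ∀ r ∈ R, 0 ≤ r ∧ r ≤ 1) :
    ∃ n : ℕ, 1 ≤ n ∧ ∀ (X Z : Var) (f : X.X ⟶ Z.X) (ω : X.Form d) (B : X.QDiv) (z : Pt Z.X),
      Linked ε R C d X Z f ω B z → Stable R n f ω B z :=
  (link_st h d hε hR).imp fun _ u => ⟨u.1, fun X Z f ω B z v =>
    let w := u.2 X Z f ω B z v.old
    ⟨w.1, fun T S F Ω D t s a b => (w.2 T S F Ω D t s a b.old).imp fun _ k =>
      ⟨k.1, fun X' Z' f' ω' B' z' s' p q r => k.2 X' Z' f' ω' B' z' s' p q r.old⟩⟩⟩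

end Vale.Agent.P283R.Lz
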