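import Vale.Agent.P283R.Lz.On
import Vale.Agent.P283R.Lz.Wr20
import Vale.Agent.P283R.Tk.All
import Vale.Agent.P283R.Tk.Brc20

/-!
# P283R: the theorems in the words of `Lz/W`, few more generators than degrees
-/

open CategoryTheory AlgebraicGeometry

namespace Vale.Agent.P283R

open Sl Sl.Var

/-- bounded klt complements over a base with at most `k + l` generators -/
theorem Sl.onN_rk (M : ℕ → ℕ) :
    OnN fun d _ _ f _ _ z => ∃ W, z.In W ∧ RankBase (M d) (pre f W) := Tk.B20.on_of Tk.pq M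

namespace Lz

theorem TRank.base {l : ℕ} {X : Var} {V : X.X.Opens} (h : TRank l V) : RankBase l V := by
  obtain ⟨Y, φ, r, k, y, D, a, b, c, e⟩ := h
  refine ⟨Y, φ, r, k, y, D, a, b, ?_, fun G => ?_⟩
  · refine (congrArg (GradedGen (k + l)) (funext fun m => Set.ext fun ψ => ?_)).mp c
    exact ⟨fun z o E _ => z o E, fun z o E => z o E trivial⟩
  · obtain ⟨m, ψ, ψ0, z⟩ := e G
    exact ⟨m, ψ, ψ0, fun E _ => congrArg Int.cast (z E)⟩

theorem on_tn (M : ℕ → ℕ) : OnN fun d _ _ f _ _ z => ∃ V, z.In V ∧ TRank (M d) (pre f V) :=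
  (onN_rk M).mono fun _ _ _ _ _ _ _ ⟨V, i, j⟩ => ⟨V, i, j.base⟩

end Lz

end Vale.Agent.P283R
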