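import Vale.Agent.P283R.Lz.On
import Vale.Agent.P283R.Lz.Wt
import Vale.Agent.P283R.Tl.All

/-!
# P283R: the theorems in the words of `Lz/W`, toric orbit spaces
-/

open CategoryTheory AlgebraicGeometry

namespace Vale.Agent.P283R.Lz

open Sl Sl.Var

theorem on_to (M : ℕ → ℕ) :
    OnN fun d _ _ f _ _ z => ∃ V, z.In V ∧ IsAffineOpen V ∧ TOrb (M d) (pre f V) :=
  onN_ob M

/-- the classes over an open neighbourhood -/
theorem on_open3t (M : ℕ → ℕ) : OnN fun d X _ f _ _ z => ∃ V, z.In V ∧ (Sph (pre f V) ∅ ∨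
    IsAffineOpen V ∧ (TOrb (M d) (pre f V) ∨ ∃ (S : Var) (π : S.X ⟶ X.X), FinQuot π ∧
      Sph (pre (π ≫ f) V) {x | x.map (π ≫ f) = z})) :=
  (on_sp.or ((on_to M).or on_sf)).mono fun _ _ _ _ _ _ _ ⟨V, i, j⟩ =>
    j.imp (fun k => ⟨V, i, k⟩) fun k => k.2.imp (fun l => ⟨V, i, k.1, l⟩) fun l => ⟨V, i, k.1, l⟩

end Vale.Agent.P283R.Lz
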