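import Vale.Agent.P283R.Lz.Bs

/-!
# Bounded klt complements: crepant or discrepant resolutions of the generic fibre
-/

open CategoryTheory AlgebraicGeometry

namespace Vale.Agent.P283R.Lz

open Sl Sl.Var

/-- `g : X → Y` is a contraction, and there is a birational contraction `ρ : X' → X` such that
`X' → Y` is of Fano type and lies in `Steps J`, and for every exceptional prime divisor `E` of
`ρ`: `E` dominates `Y`, at the centre of `E` the multiple `J! D` of every `ℚ`-Cartier Weil divisor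
`D` is Cartier, `K_X` is `ℚ`-Cartier and the discrepancy of `E` is not positive. -/
def Res (J : ℕ) {d : ℕ} {X Y : Var} (g : X.X ⟶ Y.X) (ω : X.Form d) : Prop :=
  Contr g ∧ ∃ (X' : Var) (ρ : X'.X ⟶ X.X) (p : Iso X X') (η : X'.Form d),
    Contr ρ ∧ IsPull ρ p ∧ η.Nonzero ∧ Fano (ρ ≫ g) η ∧ Steps J (ρ ≫ g) ∧
    ∀ E : X'.PrimeDiv, (E.1.map ρ).CodimOne ∨ (E.1.map ρ).map g = generic Y.X ∧
      (∀ (D : X.PrimeDiv → ℤ) m a, 0 < m → LocalEq (fun F => D F) m a (E.1.map ρ) →
        ∃ b, LocalEq (fun F => D F) J.factorial b (E.1.map ρ)) ∧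
      ∃ m a, 0 < m ∧ LocalEq (logCan ω 0) m a (E.1.map ρ) ∧ m * formOrd ω p E ≤ ord (p.app a) E

end Vale.Agent.P283R.Lz
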