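import Vale.Agent.P283R.Lz.On3
import Vale.Agent.P283R.Lz.Wr
import Vale.Agent.P283R.Dn.All
import Vale.Agent.P283R.Rs.Gex15
import Vale.Agent.P283R.Rs.Exc14
import Vale.Agent.P283R.Rs.Rer55
import Vale.Agent.P283R.Rs.Stp27
import Vale.Agent.P283R.Rs.Wr90

/-!
# P283R: the theorems on resolutions of the generic fibre in the words of `Lz/B`
-/

open CategoryTheory AlgebraicGeometry

namespace Vale.Agent.P283R.Lz

open Sl Sl.Var

theorem R55.old {J : ℕ} {X Y : Var} {g : X.X ⟶ Y.X} (h : Steps J g) : Sl.Steps J g := by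
  induction h with
  | one a b => exact .one a b
  | comp _ _ a b => exact .comp a b
  | small p a b c _ i => exact .small p a b c i
  | etale b a c e f k l _ i => exact .etale b a c e f k l i

theorem Res.old {J d : ℕ} {X Y : Var} {g : X.X ⟶ Y.X} {ω : X.Form d} (h : Res J g ω) :
    Resolved J (fun _ k => Sl.Steps J k) g ω :=
  let ⟨a, X', ρ, p, η, b1, b2, b3, b4, b5, b6⟩ := h
  ⟨a, X', ρ, p, η, b1, b2, b3, b4, R55.old b5, b6⟩

/-- the class contains the towers of Fano type -/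
theorem Steps.res {J d : ℕ} {X Y : Var} {g : X.X ⟶ Y.X} {ω : X.Form d} (h : Steps J g)
    (b : ω.Nonzero) (f : Fano g ω) : Res J g ω :=
  ⟨(Dn.rows.2 J X Y g (R55.old h)).1, X, 𝟙 _, RingEquiv.refl _, ω, Br.ctr_id (X := X.o),
    Br.pb_id (X := X.o), b, (Category.id_comp g).symm ▸ f, (Category.id_comp g).symm ▸ h,
    fun E => .inl E.2⟩

theorem R55.gw (J : ℕ → ℕ) : Rs.Gw fun d _ _ g ω => Res (J d) g ω := fun d e q ε q0 ε0 =>
  let ⟨q', M, ε', a, b, c, H⟩ := Rs.rer55 Rs.gex15 Rs.exc14 J (fun d _ _ g => Sl.Steps (J d) g)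
    (Rs.gw_steps Dn.tgn Dn.rows.2 J) d e q ε q0 ε0
  ⟨q', M, ε', a, b, c, fun X Y g ω h => H X Y g ω h.old⟩

/-- over a class -/
theorem res (J : ℕ → ℕ) {C : ∀ (d : ℕ) (X Z : Var), (X.X ⟶ Z.X) → X.Form d → Pt Z.X → Prop}
    (h : OnN fun d X Z f ω _ z => C d X Z f ω z) : OnN fun d Y W g η D w =>
      ∃ (e : ℕ) (T : Var) (a : Y.X ⟶ T.X) (h : T.X ⟶ W.X) (θ : T.Form e),
        dimension T.str = e ∧ 1 ≤ e ∧ θ.Nonzero ∧ a ≫ h = g ∧ Res (J d) a η ∧ Triv a η D ∧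
        C e T W h θ w := Rs.wra90 _ (R55.gw J) C h

/-- over a class of germs -/
theorem res_germ (J : ℕ → ℕ) {S : ℕ → ∀ Z : Var, Pt Z.X → Prop}
    (h : On fun d _ Z f ω B z => Crepant f ω B z ∧ S d Z z) : OnN fun d _ Z f ω B z =>
    ∃ e : ℕ, dimension Z.str = e ∧ 1 ≤ e ∧ Res (J d) f ω ∧ Triv f ω B ∧ S e Z z :=
  (R55.gw J).germ90 h

/-- over a germ -/
theorem on_germR (J : ℕ → ℕ) : OnN fun d _ W g η D w =>
    ∃ e : ℕ, dimension W.str = e ∧ 1 ≤ e ∧ Res (J d) g η ∧ Triv g η D ∧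
      ((∃ (U : _) (S : Type) (_ : CommRing S) (_ : Algebra ℂ S), IsAffineOpen U ∧ w.In U ∧
        Quo (e = d ∧ Same g D.coeff 0) (regOn U) S) ∨ 3 ≤ e ∧ Mild e (e - 3) W w) :=
  mono_cl (Rs.wrb90 _ (R55.gw J)) fun _ _ _ _ _ _ _ k _ ⟨e, a, b, c, t, u⟩ =>
    ⟨e, a, b, c, t, u.imp (fun ⟨_, _, _, _, i, j, v⟩ => v.old k i j) id⟩

end Vale.Agent.P283R.Lz
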