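import Vale.Agent.P283R.Lz.Wv36
import Vale.Agent.P283R.Lz.On4
import Vale.Agent.P283R.Tk.Pln10
import Vale.Agent.P283R.Cx.Gu

/-!
# P283R: torus actions whose orbit space is spherical or has few Cox generators
-/

open Set CategoryTheory AlgebraicGeometry

namespace Vale.Agent.P283R.Lz

open Sl Sl.Var Vale.Agent.P287D

theorem V36.pad {K : Type} [Field K] [Algebra ℂ K] {k N N' : ℕ} {A : (Fin k → ℤ) → Set K}
    (h : Gens N A) (le : N ≤ N') : Gens N' A := by
  induction le with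
  | refl => exact h
  | step _ ih =>
    obtain ⟨s, a, π, e, g⟩ := ih
    refine ⟨Fin.cons 0 s, Fin.cons 0 a, π.comp (MvPolynomial.aeval (Fin.cons 0 MvPolynomial.X)),
      fun j => ?_, fun F => Iff.trans ⟨fun ⟨p, h⟩ => ⟨_, h⟩, fun ⟨p, h⟩ =>
        ⟨MvPolynomial.rename Fin.succ p, ?_⟩⟩ (g F)⟩
    · refine Fin.cases ?_ (fun j => ?_) j
      · simp
      · simpa using e j
    · rw [AlgHom.comp_apply, MvPolynomial.aeval_rename, ← h]
      exact congrArg π (MvPolynomial.aeval_X_left_apply p)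

theorem V36.mono {l l' : ℕ} {X : Var} {U : X.X.Opens} (h : Ly.Cox l U) (le : l ≤ l') :
    Ly.Cox l' U :=
  let ⟨k, D, a, b⟩ := h
  ⟨k, D, V36.pad a (Nat.add_le_add_left le k), b⟩

/-- a spherical variety has few Cox generators -/
theorem V36.cox {Y : Var} {c : ℕ} (ff : FF Y.K c) (h : Ly.Sph (all Y.X)) :
    Ly.Cox (Sg.ell c + 1) (all Y.X) := by
  rcases Nat.eq_zero_or_pos c with rfl | c0
  · have em : ∀ _ : Y.PrimeDiv, False := fun F => Bm.no_pl ff (Gl.pq (X := Y.o) F)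
    refine ⟨0, ![], V36.pad (N := 1) ?_ (by omega), fun F => (em F).elim⟩
    refine (congrArg (GradedGen 1) (funext fun m => eq_of_subset_of_subset
      (fun φ _ _ F => (em F).elim) fun φ _ => ?_)).mp (Cx.gen_of_sp (fun _ => (1 : Y.K)) 0)
    obtain ⟨b, rfl⟩ := Pb.cst_sur ff φ
    rw [Algebra.algebraMap_eq_smul_one]
    exact Submodule.smul_mem _ _ (Submodule.subset_span ⟨0, Subsingleton.elim _ _, by simp⟩)
  obtain ⟨N, h⟩ := h.old
  obtain ⟨k, N', D, h1, h2, h3, -⟩ := Sq.full (U := all Y.X) c0 ff le_rfl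
    ⟨genericPoint Y.X, trivial⟩ h
  exact ⟨k, D, V36.pad h2 h1, h3⟩

/-- orbit spaces which are spherical or have few Cox generators -/
theorem on_ts (M : ℕ → ℕ) : OnN fun d _ _ f _ _ z => ∃ V, z.In V ∧ TSph (M d) (pre f V) := by
  intro d hd ε hε R hR
  obtain ⟨n, hn, H⟩ := on_plain10
    (fun d => M d + ∑ c ∈ Finset.range (d + 1), (Sg.ell c + 1)) d hd ε hε R hR
  refine ⟨n, hn, fun X Z f ω B z a b c i s t ⟨u, v, V, p, Y, φ, r, y, q1, q2, q⟩ =>
    H X Z f ω B z a b c i s t ⟨u, v, V, p, Y, φ, r, y, q1, q2, q.elim (fun q => ?_)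
      fun q => V36.mono q (Nat.le_add_right _ _)⟩⟩
  obtain ⟨x, hx⟩ := s.2.2.1.surj z
  obtain ⟨-, -, -, -, ⟨ψ, -, -⟩, -⟩ := q1 x (show f x ∈ V from hx ▸ p)
  obtain ⟨e, ff⟩ := P283M.Md.exists_ff Y.o
  have le : e ≤ d := by
    have := trdeg_le_of_injective ψ ψ.toRingHom.injective
    rw [show Algebra.trdeg ℂ Y.K = e from ff.trdeg,
      show Algebra.trdeg ℂ X.K = d from (P283M.Br.ffd X.o _ a).trdeg] at this
    exact_mod_cast this
  exact V36.mono (V36.cox ff q) ((Finset.single_le_sum (f := fun c => Sg.ell c + 1)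
    (fun _ _ => Nat.zero_le _) (Finset.mem_range.2 (Nat.lt_succ_of_le le))).trans
      (Nat.le_add_left _ _))

end Vale.Agent.P283R.Lz
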