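import Vale.Agent.P283R.Lz.Wx10
import Vale.Agent.P283R.Tk.Pln10
import Vale.Agent.P283R.Tk.Cox42

/-!
# P283R: the theorem for orbit spaces with few Cox generators
-/

open CategoryTheory AlgebraicGeometry

namespace Vale.Agent.P283R.Ly

open Sl Sl.Var Lz

theorem on_tcox (M : ℕ → ℕ) :
    OnN fun d _ _ f _ _ z => ∃ V, z.In V ∧ TCox (M d) (pre f V) := on_plain10 M

theorem tcox_of_tgen {l : ℕ} {X : Var} {V : X.X.Opens} (h : TGen l V) : TCox l V :=
  let ⟨Y, φ, r, y, a, b, c⟩ := h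
  ⟨Y, φ, r, y, a, b, FewGen.cox c⟩

end Vale.Agent.P283R.Ly
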