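import Vale.Agent.P283R.Lz.W

/-!
# Bounded klt complements: orbit spaces which are toric or have few Cox generators
-/

open CategoryTheory AlgebraicGeometry

namespace Vale.Agent.P283R.Lz

open Sl Sl.Var

/-- The open subset `V` of `X` is covered by affine open subsets on which a torus acts: `y` are
eigenfunctions, the invariant rational functions are the rational functions `φ c` on a variety `Y`,
every prime divisor of `V` dominates `Y` or a prime divisor of `Y`, and `Y` is a toric variety, or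
the Cox ring of `Y`, formed with prime divisors `D_i` which generate the class group, has at most
`l` generators. -/
def TTor (l : ℕ) {X : Var} (V : X.X.Opens) : Prop :=
  ∃ (Y : Var) (φ : Y.K → X.K) (r : ℕ) (y : Fin r → X.K),
    (∀ x : Pt X.X, x.In V → ∃ U ≤ V, IsAffineOpen U ∧ x.In U ∧ Graded φ y (regOn U)) ∧
    (∀ E : X.PrimeDiv, E.1.In V → (∀ c, ord (φ c) E = 0) ∨
      ∃ (F : Y.PrimeDiv) (μ : ℤ), ∀ c, ord (φ c) E = μ * ord c F) ∧
    ((∃ (c : ℕ) (s : Fin c → Y.K), ∀ x : Pt Y.X, ∃ U, IsAffineOpen U ∧ x.In U ∧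
      Graded (algebraMap ℂ Y.K) s (regOn U)) ∨ ∃ (k : ℕ) (D : Fin k → Y.PrimeDiv),
    Gens l (fun m => {ψ | ψ ≠ 0 → ∀ E : Y.PrimeDiv, E.1.In (all Y.X) →
      0 ≤ ord ψ E + ∑ i, m i * Finsupp.single (D i) 1 E}) ∧
    ∀ G : Y.PrimeDiv →₀ ℤ, ∃ (m : Fin k → ℤ) (ψ : Y.K), ψ ≠ 0 ∧ ∀ E : Y.PrimeDiv,
      E.1.In (all Y.X) → (G E : ℚ) = (ord ψ E + ∑ i, m i * Finsupp.single (D i) 1 E : ℤ))

end Vale.Agent.P283R.Lz
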