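import Vale.Agent.P283R.Lz.On20
import Vale.Agent.P283R.Lz.Wx20
import Vale.Agent.P283R.Tk.Cox42
import Vale.Agent.P283R.Tk.Tor42

/-!
# P283R: the plain word for the orbit space
-/

open CategoryTheory AlgebraicGeometry

namespace Vale.Agent.P283R.Lz

open Sl Sl.Var Vale.Agent.P287D Vale.Agent.P297Z

theorem TCox.base {l : ℕ} {X : Var} {V : X.X.Opens} (h : TCox l V) : RankBase l V := by
  obtain ⟨Y, φ, r, y, a, b, k, D, c, e⟩ := h
  refine ⟨Y, φ, r, k, y, D, a, b, c, fun G => ?_⟩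
  have o : ∀ (E : Y.PrimeDiv) (g : Y.K), ord g E = (Gl.pq (X := Y.o) E).ord g := fun E =>
    Gl.pq_ord (X := Y.o) E
  induction G using Finsupp.induction_linear with
  | zero => exact ⟨0, 1, one_ne_zero, fun E _ => by simp [comb, o]⟩
  | add G G' h h' =>
    obtain ⟨m, ψ, ψ0, z⟩ := h
    obtain ⟨m', ψ', ψ1, z'⟩ := h'
    refine ⟨m + m', ψ * ψ', mul_ne_zero ψ0 ψ1, fun E t => ?_⟩
    have z1 := z E t
    have z2 := z' E t
    simp only [comb, o, Pl.ord_mul _ ψ0 ψ1, Pi.add_apply, add_mul, Finset.sum_add_distrib,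
      Finsupp.add_apply] at z1 z2 ⊢
    push_cast at z1 z2 ⊢
    linear_combination z1 + z2
  | single F n =>
    obtain ⟨m, ψ, ψ0, z⟩ := e F
    refine ⟨n • m, ψ ^ n, zpow_ne_zero _ ψ0, fun E t => ?_⟩
    have z1 : Finsupp.single F (1 : ℚ) E = _ := z E t
    have z2 : ((Finsupp.single F n E : ℤ) : ℚ) = n * Finsupp.single F (1 : ℚ) E := by
      by_cases v : F = E <;> simp [v]
    simp only [comb, o, Pl.ord_zpow, Pi.smul_apply, smul_eq_mul, mul_assoc, ← Finset.mul_sum]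
      at z1 ⊢
    rw [z2, z1]
    push_cast
    ring

/-- orbit spaces with few Cox generators -/
theorem on_tx (M : ℕ → ℕ) : OnN fun d _ _ f _ _ z => ∃ V, z.In V ∧ TCox (M d) (pre f V) :=
  (onN_rk M).mono fun _ _ _ _ _ _ _ ⟨V, i, j⟩ => ⟨V, i, j.base⟩

/-- the word `TGen` is contained -/
theorem TGen.cox20 {l : ℕ} {X : Var} {V : X.X.Opens} (h : TGen l V) : TCox l V :=
  let ⟨Y, φ, r, y, a, b, q⟩ := h
  ⟨Y, φ, r, y, a, b, FewGen.cox q⟩

/-- the word `TTor` is contained -/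
theorem TTor.cox20 {l d : ℕ} {X : Var} {V : X.X.Opens} {x : Pt X.X} (h : TTor l V) (i : x.In V)
    (hd : dimension X.str = d) (le : 2 * d ≤ l) : TCox l V := (h.gen i hd le).cox20

end Vale.Agent.P283R.Lz
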