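import Vale.Agent.P283R.Lz.W
import Vale.Agent.P283R.Lz.B

/-!
# Bounded klt complements: fibrations which are étale over a fibration with an attracting point
-/

open CategoryTheory AlgebraicGeometry

namespace Vale.Agent.P283R.Lz

open Sl Sl.Var

/-- The Weil divisor `D'` is linearly equivalent to `π^* D` on the open set `O`. -/
def Lift {X Y : Var} (π : Y.X ⟶ X.X) (O : Y.X.Opens) (D' : Y.PrimeDiv →₀ ℤ)
    (D : X.PrimeDiv →₀ ℤ) : Prop :=
  ∃ j : Y.K, j ≠ 0 ∧ ∀ (E : Y.PrimeDiv) (F : X.PrimeDiv), E.1.In O → E.1.map π = F.1 →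
    D' E = D F + ord j E

/-- `g` is the base change along an étale map `(W, w) → (Z, z)`, with `Z` affine, of a contraction
`f : X → Z` of Fano type which satisfies `C` at `z`; near the fibre over `w` all Weil divisors are
pulled back from `X` up to linear equivalence; every point of `Z` is moved into every neighbourhood
of `z` by an étale endomorphism of `f` which acts trivially on the class group of `X`; every
subvariety of `W` through `w` other than `w` contains a closed point at which `P` holds. -/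
def Attr {W Y : Var} (d : ℕ) (C : ∀ X Z : Var, (X.X ⟶ Z.X) → Pt Z.X → Prop) (P : Pt W.X → Prop)
    (g : Y.X ⟶ W.X) (w : Pt W.X) : Prop :=
  (∃ (X Z : Var) (f : X.X ⟶ Z.X) (π : Y.X ⟶ X.X) (e : W.X ⟶ Z.X) (z : Pt Z.X) (ω : X.Form d),
    (Etale e ∧ e ≫ Z.str = W.str ∧ w.map e = z ∧ w.Closed) ∧
    (IsPullback π g f e ∧ π ≫ X.str = Y.str) ∧ Contr f ∧ IsAffine Z.X ∧ ω.Nonzero ∧
    (Fano f ω ∧ C X Z f z) ∧
    (∀ D', ∃ D U, w.In U ∧ Lift π (pre g U) D' D) ∧
    ∀ (U : Z.X.Opens) (v : Pt Z.X), z.In U → ∃ (σ : X.X ⟶ X.X) (τ : Z.X ⟶ Z.X), Etale τ ∧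
      τ ≫ Z.str = Z.str ∧ (IsPullback σ f f τ ∧ σ ≫ X.str = X.str) ∧ (v.map τ).In U ∧
      ∀ D, Lift σ (all X.X) D D) ∧
  ∀ η : Pt W.X, η ⤳ w → η ≠ w → ∃ v : Pt W.X, v.Closed ∧ η ⤳ v ∧ P v

end Vale.Agent.P283R.Lz
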