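import Vale.Agent.P283R.Lz.W

/-!
# Bounded klt complements: spherical varieties
-/

open CategoryTheory AlgebraicGeometry

namespace Vale.Agent.P283R.Lz

open Sl Sl.Var

/-- The open subset `U` of `X` is a spherical variety, an embedding of `G / H`: the translations
permute the local rings of `U`. -/
def Emb {X : Var} (U : X.X.Opens) : Prop :=
  ∃ (N : ℕ) (L : Type) (_ : Field L) (_ : Algebra ℂ L) (x : Matrix (Fin N) (Fin N) L) (G H : _)
    (l r i : _), Homog (K := X.K) x G H l r i fun t =>
      ∀ y : Pt X.X, y.In U → ∃ y' : Pt X.X, y'.In U ∧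
        ∀ a a', t a a' → (RegAt a y ↔ RegAt a' y')

end Vale.Agent.P283R.Lz
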