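import Vale.Agent.P283R.Lz.W

/-!
# Bounded klt complements: families, models, étale descent
-/

open CategoryTheory AlgebraicGeometry

namespace Vale.Agent.P283R.Lz

open Sl Sl.Var

/-- The hypotheses of the conjecture: `(X, B)` is an `ε`-lc pair of dimension `d ≥ 1` with the
coefficients in `R`, `f` is a contraction of Fano type, `-(K + B)` is nef over `Z`, and `z` is a
closed point. -/
def Datum (ε : ℝ) (R : Finset ℚ) {d : ℕ} {X Z : Var} (f : X.X ⟶ Z.X) (ω : X.Form d) (B : X.QDiv)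
    (z : Pt Z.X) : Prop :=
  1 ≤ d ∧ dimension X.str = d ∧ ω.Nonzero ∧ Pair (ε ≤ ·) (all X.X) ω B ∧
    (∀ y, B.coeff y ≠ 0 → B.coeff y ∈ R) ∧ Contraction f ∧ FanoType f ω ∧
    NefOver f (-logCan ω B) ∧ z.Closed

/-- `X` and `X'` are birational over `Z`, and `K_X + B` is at most the pull back of `K_X' + B'`
along every prime divisor `E` of `X`; `x'` is a point in the centre of `E` on `X'`. -/
def Below {d : ℕ} {X X' Z : Var} (f : X.X ⟶ Z.X) (B : X.QDiv) (f' : X'.X ⟶ Z.X) (ω' : X'.Form d)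
    (B' : X'.QDiv) : Prop :=
  ∃ q : Iso X' X, (∀ (x : Pt X.X) (x' : Pt X'.X) (a : St Z.X (x.map f)) (a' : St Z.X (x'.map f')),
      toRat a = toRat a' → q.app (toRat (comap f' x' a')) = toRat (comap f x a)) ∧
    ∀ (E : X.PrimeDiv) (x' : Pt X'.X) m g, (∀ a, RegAt a x' → RegAt (q.app a) E.1) →
      LocalEq (logCan ω' B') m g x' → m * (formOrd ω' q E + B.coeff E) ≤ ord (q.app g) E

/-- `(f : X → Z, B, z)` is the fibre `{t = c}` of the family `(F : T → S, D)` at the point `s`:
`i` identifies `X` with the zero scheme of the nonzero regular function `t - c` on `T`, `B` is the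
restriction of `D` (a local equation `a` of `m D` at the generic point of a prime divisor `y` of
`X` restricts to a local equation of `m B`), and `Z` is a subvariety of `S` in which `z` is the
point `s`. -/
def Fibre {S T X Z : Var} (F : T.X ⟶ S.X) (t : T.K) (D : T.QDiv) (s : Pt S.X) (f : X.X ⟶ Z.X)
    (B : X.QDiv) (z : Pt Z.X) : Prop :=
  ∃ (i : X.X ⟶ T.X) (j : Z.X ⟶ S.X) (c : ℂ) (u : T.K), u = t - constants T.str c ∧
    IsPreimmersion j ∧ f ≫ j = i ≫ F ∧ z.map j = s ∧
    (IsPreimmersion i ∧ i ≫ T.str = X.str ∧ u ≠ 0 ∧ u ∈ regOn (all T.X) ∧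
      (∀ x : Pt T.X, x.In (all T.X) → RegAt u⁻¹ x ∨ ∃ y : Pt X.X, y.map i = x) ∧
      ∀ y : Pt X.X, (y.map i).In (all T.X) ∧ ∃ a, toRat a = u ∧ ∀ b, comap i y b = 0 ↔ a ∣ b) ∧
    ∀ y : X.PrimeDiv, ∃ (m : ℕ) (a : St T.X (y.1.map i)), 0 < m ∧
      LocalEq D.coeff m (toRat a) (y.1.map i) ∧ LocalEq B.coeff m (toRat (comap i y.1 a)) y.1

/-- The least class of lc data such that: the `ε`-lc data of the class `C` lie in it (`base`); with
the fibre of a family `(F : T → S, D)` at a point `s` so do the family at `s` (`total`) and the data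
which occur as fibres of the family at points arbitrarily close to `s` (`near`); with a datum so do
the birational models below it (`model`); a datum lies in the class if an étale base change does
(`etale`). -/
inductive Linked (ε : ℝ) (R : Finset ℚ)
    (C : ∀ (d : ℕ) (X Z : Var), (X.X ⟶ Z.X) → X.Form d → X.QDiv → Pt Z.X → Prop) :
    ∀ (d : ℕ) (X Z : Var), (X.X ⟶ Z.X) → X.Form d → X.QDiv → Pt Z.X → Prop
  | base {d X Z f ω B z} : Datum ε R f ω B z → C d X Z f ω B z → Linked ε R C d X Z f ω B z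
  | total {d X Z f ω B z T S F Ω D s} (t : T.K) : Linked ε R C d X Z f ω B z →
      Datum 0 R F Ω D s → Fibre F t D s f B z → Linked ε R C (d + 1) T S F Ω D s
  | near {d X Z f ω B z} {T S : Var} {F : T.X ⟶ S.X} {D s X' Z' f' ω' B' z'}
      (Ω : T.Form (d + 1)) (t : T.K) : Linked ε R C d X Z f ω B z → Datum 0 R F Ω D s →
      Fibre F t D s f B z → Datum 0 R f' ω' B' z' →
      (∀ U, s.In U → ∃ s', s'.In U ∧ Fibre F t D s' f' B' z') → Linked ε R C d X' Z' f' ω' B' z'
  | model {d X Z f ω B z X' f' ω' B'} : Linked ε R C d X' Z f' ω' B' z →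
      Datum 0 R f ω B z → Below f B f' ω' B' → Linked ε R C d X Z f ω B z
  | etale {d X Z f ω B z Y W g ω' B' w} (π : Y.X ⟶ X.X) (e : W.X ⟶ Z.X) :
      Linked ε R C d Y W g ω' B' w → Datum 0 R f ω B z →
      (Etale e ∧ e ≫ Z.str = W.str ∧ w.map e = z ∧ w.Closed) →
      (IsPullback π g f e ∧ π ≫ X.str = Y.str) → Same π B'.coeff B.coeff →
      Linked ε R C d X Z f ω B z

/-- `(X, B)` has a klt `n`-complement over `z`, and so have its neighbours: if the datum is the
fibre at `s` of a family `(F : T → S, D)`, then all fibres of the family at the points `s'` of some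
open neighbourhood `U` of `s` have klt `n`-complements. -/
def Stable (R : Finset ℚ) (n : ℕ) {d : ℕ} {X Z : Var} (f : X.X ⟶ Z.X) (ω : X.Form d) (B : X.QDiv)
    (z : Pt Z.X) : Prop :=
  HasKltComplement f ω B n z ∧ ∀ (T S : Var) (F : T.X ⟶ S.X) (Ω : T.Form (d + 1)) D t s,
    Datum 0 R F Ω D s → Fibre F t D s f B z → ∃ U, s.In U ∧
      ∀ (X' Z' : Var) (f' : X'.X ⟶ Z'.X) (ω' : X'.Form d) B' z' (s' : Pt S.X),
        Datum 0 R f' ω' B' z' → s'.In U → Fibre F t D s' f' B' z' →
        HasKltComplement f' ω' B' n z'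

end Vale.Agent.P283R.Lz
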