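import Vale.Agent.P283R.Lz.W

/-!
# Bounded klt complements: orbit spaces which are toric or have few Cox generators besides the boundary
-/

open CategoryTheory AlgebraicGeometry

namespace Vale.Agent.P283R.Lz

open Sl Sl.Var

/-- The open subset `V` of `X` is covered by affine open subsets on which a torus acts: `y` are
eigenfunctions, the invariant rational functions are the rational functions `φ c` on a variety `Y`,
every prime divisor of `V` dominates `Y` or a prime divisor of `Y`; `Y` is a toric variety, or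
finitely many prime divisors `F ∈ S` generate the class group of `Y`, and the Cox ring of `Y` is
generated by their canonical sections and `l` more sections `s`: every function `g` which is regular
outside of `S` is a combination of monomials in `s` of at least the orders of `g` along `S`. -/
def TFew (l : ℕ) {X : Var} (V : X.X.Opens) : Prop :=
  ∃ (Y : Var) (φ : Y.K → X.K) (r : ℕ) (y : Fin r → X.K),
    (∀ x : Pt X.X, x.In V → ∃ U ≤ V, IsAffineOpen U ∧ x.In U ∧ Graded φ y (regOn U)) ∧
    (∀ E : X.PrimeDiv, E.1.In V → (∀ c, ord (φ c) E = 0) ∨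
      ∃ (F : Y.PrimeDiv) (μ : ℤ), ∀ c, ord (φ c) E = μ * ord c F) ∧
    ((∃ (c : ℕ) (s : Fin c → Y.K), ∀ x : Pt Y.X, ∃ U, IsAffineOpen U ∧ x.In U ∧
      Graded (algebraMap ℂ Y.K) s (regOn U)) ∨ ∃ (S : Finset Y.PrimeDiv) (s : Fin l → Y.K),
      (∀ G : Y.PrimeDiv →₀ ℤ, ∃ g, g ≠ 0 ∧ ∀ F ∉ S, ord g F = G F) ∧
      (∀ j, s j ≠ 0 ∧ ∀ F ∉ S, 0 ≤ ord (s j) F) ∧
      ∀ g, (∀ F ∉ S, 0 ≤ ord g F) → g ∈ Submodule.span ℂ
        {x | (∃ w : Fin l → ℕ, x = ∏ j, s j ^ w j) ∧ ∀ F ∈ S, ord g F ≤ ord x F})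

end Vale.Agent.P283R.Lz
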